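import Crest.Agent.N111.Api.Bes

-- ▼ part N111/Api/FP0
section

/-! # Row 111 API: truncated kernels, cut-off functions. -/

set_option autoImplicit false
set_option linter.unusedSectionVars false
set_option linter.unusedVariables false

namespace Crest.Agent.N111

open MeasureTheory Topology Filter
open scoped InnerProductSpace

variable {K : Type} [NormedAddCommGroup K] [InnerProductSpace ℂ K] [CompleteSpace K]

theorem Sh_mono {L R R' : ℝ} (h : R ≤ R') : Sh L R ⊆ Sh L R' :=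
  fun _ hμ => ⟨hμ.1.trans h, hμ.2.trans (by linarith)⟩

namespace FP

lemma sum_shift_le (t : K →L[ℂ] K) (ν : Γ) (x : LG K) (F : Finset Γ) :
    ∑ μ ∈ F, ‖t (x (μ * ν))‖ ^ 2 ≤ (‖t‖ * ‖x‖) ^ 2 := by
  have h := LG.sum_le x (F.map (Equiv.mulRight ν).toEmbedding)
  rw [Finset.sum_map] at h
  calc _ ≤ ∑ μ ∈ F, ‖t‖ ^ 2 * ‖x (μ * ν)‖ ^ 2 := Finset.sum_le_sum fun μ _ => by
        rw [← mul_pow]; gcongr; exact t.le_opNorm _
    _ ≤ _ := by rw [← Finset.mul_sum, mul_pow]; gcongr; exact h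

/-- the right shift with an operator coefficient -/
noncomputable def shf (t : K →L[ℂ] K) (ν : Γ) : LG K →L[ℂ] LG K :=
  LinearMap.mkContinuous
    { toFun := fun x => ⟨fun μ => t (x (μ * ν)), memℓp_gen' (C := (‖t‖ * ‖x‖) ^ 2) fun F => by
        simpa using sum_shift_le t ν x F⟩
      map_add' := fun x y => lp.ext (funext fun μ => map_add t _ _)
      map_smul' := fun c x => lp.ext (funext fun μ => map_smul t c _) } ‖t‖
    fun x => LG.norm_le (by positivity) (sum_shift_le t ν x)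

lemma shf_apply (t : K →L[ℂ] K) (ν : Γ) (x : LG K) (μ : Γ) : shf t ν x μ = t (x (μ * ν)) := rfl

lemma norm_shf_le (t : K →L[ℂ] K) (ν : Γ) (x : LG K) : ‖shf t ν x‖ ≤ ‖t‖ * ‖x‖ :=
  LG.norm_le (by positivity) (sum_shift_le t ν x)

lemma inner_shf (t : K →L[ℂ] K) (ν : Γ) (x y : LG K) :
    ⟪x, shf t ν y⟫_ℂ = ⟪shf (star t) ν⁻¹ x, y⟫_ℂ := by
  refine (LG.hasSum_inner x (shf t ν y)).unique ?_
  have := (Equiv.mulRight ν).hasSum_iff.2 (LG.hasSum_inner (shf (star t) ν⁻¹ x) y)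
  simpa only [Function.comp_def, shf_apply, Equiv.coe_mulRight, mul_inv_cancel_right,
    ContinuousLinearMap.star_eq_adjoint, ContinuousLinearMap.adjoint_inner_left] using this

lemma norm_comm_shf_le (t : K →L[ℂ] K) (ν : Γ) {F : Γ → ℂ} (hF : BM F) {δ : ℝ} (hδ : 0 ≤ δ)
    (h : ∀ μ, ‖F (μ * ν) - F μ‖ ≤ δ) (x : LG K) :
    ‖mulG K F (shf t ν x) - shf t ν (mulG K F x)‖ ≤ δ * (‖t‖ * ‖x‖) := by
  refine (LG.norm_le_of_le (y := shf t ν x) hδ fun μ => ?_).trans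
    (mul_le_mul_of_nonneg_left (norm_shf_le t ν x) hδ)
  rw [lp.coeFn_sub, Pi.sub_apply, mulG_apply hF, shf_apply, shf_apply, mulG_apply hF, map_smul,
    ← sub_smul, norm_smul, norm_sub_rev]
  gcongr
  exact h μ

/-- slowly varying cut-off functions -/
lemma exists_cutoff (s : Finset Γ) {δ : ℝ} (hδ : 0 < δ) : ∃ t : Finset Γ, ∀ S : Set Γ,
    ∃ χ : Γ → ℝ, (∀ μ, 0 ≤ χ μ ∧ χ μ ≤ 1) ∧ (∀ μ ∈ S, χ μ = 1) ∧
      (∀ μ, χ μ ≠ 0 → ∃ b ∈ t, μ * b⁻¹ ∈ S) ∧ ∀ ν ∈ s, ∀ μ, |χ (μ * ν) - χ μ| ≤ δ := by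
  classical
  open scoped Pointwise in
  obtain ⟨R, hR⟩ := exists_nat_one_div_lt hδ
  refine ⟨(Finset.range (R + 1)).biUnion fun n => (s ∪ s⁻¹) ^ n, fun S => ?_⟩
  have ex : ∀ μ, ∃ n, R + 1 ≤ n ∨ ∃ b ∈ (s ∪ s⁻¹) ^ n, μ * b⁻¹ ∈ S := fun μ => ⟨_, Or.inl le_rfl⟩
  have h1 : ∀ μ, Nat.find (ex μ) ≤ R + 1 := fun μ => Nat.find_min' _ (Or.inl le_rfl)
  have h2 : ∀ ν ∈ s ∪ s⁻¹, ∀ μ, Nat.find (ex (μ * ν)) ≤ Nat.find (ex μ) + 1 := fun ν hν μ => by
    refine Nat.find_min' _ ((Nat.find_spec (ex μ)).imp (by omega) ?_)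
    rintro ⟨b, hb, h⟩
    exact ⟨b * ν, by rw [pow_succ]; exact Finset.mul_mem_mul hb hν, by simpa [mul_assoc] using h⟩
  have hp : (0 : ℝ) < R + 1 := by positivity
  refine ⟨fun μ => 1 - Nat.find (ex μ) / (R + 1 : ℝ), fun μ => ⟨?_, ?_⟩, fun μ hμ => ?_,
    fun μ hμ => ?_, fun ν hν μ => ?_⟩
  · rw [sub_nonneg, div_le_one hp]; exact_mod_cast h1 μ
  · exact sub_le_self _ (by positivity)
  · have : Nat.find (ex μ) = 0 := (Nat.find_eq_zero _).2 (Or.inr ⟨1, by simp, by simpa⟩)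
    simp [this]
  · have h3 : Nat.find (ex μ) < R + 1 := lt_of_le_of_ne (h1 μ) fun h => hμ (by
      simp only [h]; push_cast; rw [div_self hp.ne', sub_self])
    obtain ⟨b, hb, h⟩ := (Nat.find_spec (ex μ)).resolve_left (by omega)
    exact ⟨b, Finset.mem_biUnion.2 ⟨_, Finset.mem_range.2 h3, hb⟩, h⟩
  · have h3 : (Nat.find (ex (μ * ν)) : ℝ) ≤ Nat.find (ex μ) + 1 := by
      exact_mod_cast h2 ν (Finset.mem_union_left _ hν) μ
    have h4 : (Nat.find (ex μ) : ℝ) ≤ Nat.find (ex (μ * ν)) + 1 := by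
      have := h2 ν⁻¹ (Finset.mem_union_right _ (Finset.inv_mem_inv hν)) (μ * ν)
      simp only [mul_inv_cancel_right] at this
      exact_mod_cast this
    rw [sub_sub_sub_cancel_left, ← sub_div, abs_div, abs_of_pos hp]
    refine le_trans ?_ hR.le
    gcongr
    rw [abs_le]; constructor <;> linarith

variable {I : Ind K} {T : K →L[ℂ] K}

variable (I) in
/-- the truncated kernel of `T` -/
noncomputable def Ts (T : K →L[ℂ] K) (s : Finset Γ) : LG K →L[ℂ] LG K :=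
  ∑ ν ∈ s, shf (I.j * T * I.ρ ν * I.j) ν

lemma Ts_J (T : K →L[ℂ] K) (s : Finset Γ) (η : K) :
    Ts I T s (I.J η) = I.rw (T * I.m (ic (s : Set Γ))) η := by
  refine lp.ext (funext fun μ => ?_)
  rw [(Ind.rb_trunc T s).apply, I.m_finset, Ts, _root_.sum_apply, lp.coeFn_sum, Finset.sum_apply]
  simp only [shf_apply, I.J_apply, mul_apply_eq_comp, _root_.sum_apply, map_sum, mul_inv_rev,
    URep.mul_apply]

lemma norm_J_sub_Ts (hT : T ∈ I.Q) (s : Finset Γ) {B : ℝ} {η : K} (hη : I.Bes B η) (hB : 0 ≤ B) :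
    ‖I.J (T η) - Ts I T s (I.J η)‖
      ≤ B * ‖star T I.ξ - star (T * I.m (ic (s : Set Γ))) I.ξ‖ := by
  rw [Ts_J, ← Ind.rw_Q hT]
  exact (Ind.rb_Q hT).norm_sub_bes (Ind.rb_trunc T s) hT.1
    (Ind.mul_N hT.1 (I.m_N (bm_ic_Γ _))) hη hB

lemma inner_Ts (hT : T ∈ I.Q) (s : Finset Γ) (x y : LG K) :
    ⟪x, Ts I T s y⟫_ℂ = ⟪Ts I (star T) (s.map (Equiv.inv Γ).toEmbedding) x, y⟫_ℂ := by
  simp only [Ts, _root_.sum_apply, inner_sum, sum_inner, Finset.sum_map, inner_shf]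
  refine Finset.sum_congr rfl fun ν _ => ?_
  have : star (I.j * T * I.ρ ν * I.j) = I.j * star T * I.ρ ν⁻¹ * I.j := by
    rw [mul_assoc I.j T, (hT.2 ν).eq]
    simp only [star_mul, I.j_sa, URep.star_apply, mul_assoc]
  rw [this]
  rfl

lemma norm_comm_Ts_le (T : K →L[ℂ] K) (s : Finset Γ) {F : Γ → ℂ} (hF : BM F) {δ : ℝ} (hδ : 0 ≤ δ)
    (h : ∀ ν ∈ s, ∀ μ, ‖F (μ * ν) - F μ‖ ≤ δ) (x : LG K) :
    ‖mulG K F (Ts I T s x) - Ts I T s (mulG K F x)‖ ≤ s.card * (δ * (‖T‖ * ‖x‖)) := by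
  simp only [Ts, _root_.sum_apply, map_sum, ← Finset.sum_sub_distrib]
  rw [← nsmul_eq_mul]
  refine (norm_sum_le _ _).trans (Finset.sum_le_card_nsmul _ _ _ fun ν hν => ?_)
  refine (norm_comm_shf_le _ ν hF hδ (h ν hν) x).trans ?_
  gcongr
  calc _ ≤ ‖I.j‖ * ‖T‖ * ‖I.ρ ν‖ * ‖I.j‖ := (norm_mul_le _ _).trans (by
        gcongr; exact norm_mul₃_le)
    _ ≤ 1 * ‖T‖ * 1 * 1 := by gcongr; exacts [I.norm_j_le, URep.norm_le _ _, I.norm_j_le]
    _ = _ := by ring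

/-- the commutator on Bessel vectors -/
lemma comm_bes (hT : T ∈ I.Q) {C B ε : ℝ} (hC : 0 ≤ C) (hB : 0 ≤ B) (hε : 0 < ε) :
    ∃ s : Finset Γ, ∃ δ > (0 : ℝ), ∀ ζ η, I.Bes B ζ → I.Bes B η → ∀ F : Γ → ℂ,
      (∀ μ, ‖F μ‖ ≤ C) → (∀ ν ∈ s, ∀ μ, ‖F (μ * ν) - F μ‖ ≤ δ) →
      ‖⟪ζ, (I.m F * T - T * I.m F) η⟫_ℂ‖ ≤ ε := by
  classical
  set M := B * ‖I.ξ‖ with hM
  have hM0 : 0 ≤ M := by positivity
  have he : 0 < ε / (3 * (M * C * B + 1)) := by positivity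
  obtain ⟨s₁, h₁⟩ := eventually_atTop.1 (Metric.tendsto_nhds.1 (I.tendsto_trunc T) _ he)
  obtain ⟨s₂, h₂⟩ := eventually_atTop.1 (Metric.tendsto_nhds.1 (I.tendsto_trunc (star T)) _ he)
  set s := s₁ ∪ s₂.map (Equiv.inv Γ).toEmbedding with hs
  replace h₁ := h₁ s Finset.subset_union_left
  replace h₂ := h₂ (s.map (Equiv.inv Γ).toEmbedding) fun ν hν => by simp [hs, hν]
  rw [dist_comm, dist_eq_norm] at h₁ h₂
  refine ⟨s, ε / (3 * (M * (s.card * (‖T‖ * M)) + 1)), by positivity,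
    fun ζ η hζ hη F hF hs => ?_⟩
  have bF := bm_Γ hF
  have e : ⟪ζ, (I.m F * T - T * I.m F) η⟫_ℂ
      = ⟪I.J ζ, mulG K F (I.J (T η) - Ts I T s (I.J η))⟫_ℂ
        + ⟪I.J ζ, mulG K F (Ts I T s (I.J η)) - Ts I T s (mulG K F (I.J η))⟫_ℂ
        - ⟪I.J (star T ζ) - Ts I (star T) (s.map (Equiv.inv Γ).toEmbedding) (I.J ζ),
            mulG K F (I.J η)⟫_ℂ := by
    rw [_root_.sub_apply, inner_sub_right, mul_apply_eq_comp, mul_apply_eq_comp,
      ← ContinuousLinearMap.adjoint_inner_left T, I.inner_m, I.inner_m, I.mJ_eq bF, I.mJ_eq bF,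
      map_sub, inner_sub_right, inner_sub_right, inner_sub_left, ← inner_Ts hT,
      ContinuousLinearMap.star_eq_adjoint]
    ring
  have n1 : ‖I.J ζ‖ ≤ M := by rw [I.norm_J]; exact hζ.norm_le hB
  have n2 : ‖I.J η‖ ≤ M := by rw [I.norm_J]; exact hη.norm_le hB
  have nF : ∀ x, ‖mulG K F x‖ ≤ C * ‖x‖ := (mulG K F).le_of_opNorm_le (norm_mulG_le hC hF)
  have k : ∀ a : ℝ, 0 ≤ a → a * (ε / (3 * (a + 1))) ≤ ε / 3 := fun a ha => by
    rw [← mul_div_assoc, div_le_div_iff₀ (by positivity) (by positivity)]; nlinarith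
  have b1 : ‖⟪I.J ζ, mulG K F (I.J (T η) - Ts I T s (I.J η))⟫_ℂ‖ ≤ ε / 3 :=
    calc _ ≤ M * (C * (B * (ε / (3 * (M * C * B + 1))))) := by
          refine (norm_inner_le_norm _ _).trans (mul_le_mul n1 ((nF _).trans ?_) (norm_nonneg _) hM0)
          gcongr
          exact (norm_J_sub_Ts hT s hη hB).trans (by gcongr)
      _ = _ := by ring
      _ ≤ _ := k (M * C * B) (by positivity)
  have b2 : ‖⟪I.J ζ, mulG K F (Ts I T s (I.J η)) - Ts I T s (mulG K F (I.J η))⟫_ℂ‖ ≤ ε / 3 :=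
    calc _ ≤ M * (s.card * (ε / (3 * (M * (s.card * (‖T‖ * M)) + 1)) * (‖T‖ * M))) := by
          refine (norm_inner_le_norm _ _).trans (mul_le_mul n1
            ((norm_comm_Ts_le T s bF (by positivity) hs _).trans ?_) (norm_nonneg _) hM0)
          gcongr
      _ = _ := by ring
      _ ≤ _ := k (M * (s.card * (‖T‖ * M))) (by positivity)
  have b3 : ‖⟪I.J (star T ζ) - Ts I (star T) (s.map (Equiv.inv Γ).toEmbedding) (I.J ζ),
      mulG K F (I.J η)⟫_ℂ‖ ≤ ε / 3 :=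
    calc _ ≤ B * (ε / (3 * (M * C * B + 1))) * (C * M) := by
          refine (norm_inner_le_norm _ _).trans (mul_le_mul ?_ ((nF _).trans ?_) (norm_nonneg _)
            (by positivity))
          · exact (norm_J_sub_Ts (Ind.star_Q hT) _ hζ hB).trans (by gcongr)
          · gcongr
      _ = _ := by ring
      _ ≤ _ := k (M * C * B) (by positivity)
  rw [e]
  linarith [norm_sub_le_of_le (norm_add_le_of_le b1 b2) b3]

end FP

end Crest.Agent.N111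
end

-- ▼ part N111/Api/FP

/-! # Row 111 API: tightness and the finite propagation lemmas. -/

set_option autoImplicit false
set_option linter.unusedSectionVars false
set_option linter.unusedVariables false

namespace Crest.Agent.N111

open MeasureTheory Topology Filter
open scoped InnerProductSpace

variable {K : Type} [NormedAddCommGroup K] [InnerProductSpace ℂ K] [CompleteSpace K]

/-- right slow variation on the shells -/
def ShSlow (L : ℕ → ℝ) (F : ℕ → Γ → ℂ) : Prop :=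
  ∀ (ν : Γ) (R ε : ℝ), 0 < ε → ∀ᶠ k in atTop, ∀ μ ∈ Sh (L k) R, ‖F k (μ * ν) - F k μ‖ ≤ ε

theorem shSlow_pt {L : ℕ → ℝ} (hL : Tendsto L atTop atTop) {f : V → ℂ} (hf : Hom0 f)
    (hc : ContinuousOn f {0}ᶜ) : ShSlow L fun _ μ => f (pt μ) :=
  fun ν R _ hε => hL.eventually (osc_pt hf hc ν R hε)


namespace Ind

variable (I : Ind K) {α : Type} (l : Filter α)

/-- uniformly approximable by Bessel vectors -/
def Apx (η : α → K) : Prop := ∀ ε > 0, ∃ B, 0 ≤ B ∧ ∀ᶠ k in l, ∃ η', I.Bes B η' ∧ ‖η k - η'‖ ≤ ε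

/-- `F` varies slowly (on the right) where `η` lives -/
def Slow (F : α → Γ → ℂ) (η : α → K) : Prop :=
  ∀ ε > 0, ∃ S : α → Set Γ, (∀ᶠ k in l, ‖I.mJ (ic (S k)ᶜ) (η k)‖ ≤ ε) ∧
    ∀ ν : Γ, ∀ ε' > 0, ∀ᶠ k in l, ∀ μ ∈ S k, ‖F k (μ * ν) - F k μ‖ ≤ ε'

/-- tight on the shells -/
def TightSeq (L : α → ℝ) (η : α → K) : Prop :=
  ∀ ε > 0, ∃ R, ∀ᶠ k in l, ‖I.mJ (ic (Sh (L k) R)ᶜ) (η k)‖ ≤ ε

variable {I l} {η ζ : α → K} {T : K →L[ℂ] K}

theorem apx_U (I : Ind K) (l : Filter α) (g : α → G) (η : K) : I.Apx l fun k => I.U (g k) η :=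
  fun ε hε => by
    obtain ⟨B, η', hB, h1, h2⟩ := I.exists_bes_near η hε
    exact ⟨B, hB, Eventually.of_forall fun k =>
      ⟨_, h1.U (g k), by rwa [← map_sub, URep.norm_map]⟩⟩

theorem Apx.bdd (h : I.Apx l η) : ∃ C, 0 ≤ C ∧ ∀ᶠ k in l, ‖η k‖ ≤ C := by
  obtain ⟨B, hB, h⟩ := h 1 one_pos
  refine ⟨1 + B * ‖I.ξ‖, by positivity, h.mono ?_⟩
  rintro k ⟨η', h1, h2⟩
  linarith [norm_sub_norm_le (η k) η', h1.norm_le hB]

theorem Apx.map (h : I.Apx l η) {S : α → K →L[ℂ] K} {C : ℝ} (hC : 0 ≤ C)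
    (h1 : ∀ k x, ‖S k x‖ ≤ C * ‖x‖) (h2 : ∀ k B x, I.Bes B x → I.Bes (C * B) (S k x)) :
    I.Apx l fun k => S k (η k) := fun ε hε => by
  obtain ⟨B, hB, h⟩ := h (ε / (C + 1)) (by positivity)
  refine ⟨C * B, by positivity, h.mono ?_⟩
  rintro k ⟨η', h3, h4⟩
  refine ⟨_, h2 k B η' h3, ?_⟩
  rw [← map_sub]
  rw [le_div_iff₀ (by positivity)] at h4
  nlinarith [h1 k (η k - η'), norm_nonneg (η k - η')]

theorem Apx.Q (h : I.Apx l η) (hT : T ∈ I.Q) : I.Apx l fun k => T (η k) :=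
  h.map (S := fun _ => T) (norm_nonneg T) (fun _ => T.le_opNorm) fun _ _ _ h => h.Q hT

theorem Apx.U (h : I.Apx l η) (g : α → G) : I.Apx l fun k => I.U (g k) (η k) :=
  h.map zero_le_one (by simp) fun k _ _ h => by rw [one_mul]; exact h.U _

theorem Apx.vv (h : I.Apx l η) (g : α → G) : I.Apx l fun k => I.vv (g k) (η k) :=
  h.map zero_le_one (fun k x => by
    rw [one_mul, ContinuousLinearMap.norm_map_of_mem_unitary (I.vv_unitary _)])
    fun k _ _ h => by rw [one_mul]; exact h.vv _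


theorem Apx.congr (h : I.Apx l η) (h' : Tendsto (fun k => η k - ζ k) l (𝓝 0)) : I.Apx l ζ :=
  fun ε hε => by
    obtain ⟨B, hB, h⟩ := h (ε / 2) (by positivity)
    refine ⟨B, hB, ?_⟩
    filter_upwards [h, Metric.tendsto_nhds.1 h' (ε / 2) (by positivity)] with k ⟨η', h1, h2⟩ h3
    rw [← dist_eq_norm] at h2
    rw [dist_zero_right, ← dist_eq_norm, dist_comm] at h3
    exact ⟨η', h1, by rw [← dist_eq_norm]; linarith [dist_triangle (ζ k) (η k) η']⟩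

theorem Apx.mono {l' : Filter α} (h : I.Apx l η) (hl : l' ≤ l) : I.Apx l' η :=
  fun ε hε => (h ε hε).imp fun _ h => ⟨h.1, hl h.2⟩

/-- `L²`-small elements of `Q` are small on approximable families -/
theorem Apx.tendsto_Q (h : I.Apx l η) {T : α → K →L[ℂ] K} (hT : ∀ k, T k ∈ I.Q) {C : ℝ}
    (hC : ∀ k, ‖T k‖ ≤ C) (h0 : Tendsto (fun k => T k I.ξ) l (𝓝 0)) :
    Tendsto (fun k => T k (η k)) l (𝓝 0) := by
  refine Metric.tendsto_nhds.2 fun ε hε => ?_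
  obtain ⟨B, hB, h⟩ := h (ε / (2 * (|C| + 1))) (by positivity)
  filter_upwards [h, Metric.tendsto_nhds.1 h0 (ε / (2 * (B + 1))) (by positivity)]
    with k ⟨η', h1, h2⟩ h3
  rw [dist_zero_right] at h3 ⊢
  have h4 := h1.norm_Q_le hB (hT k)
  rw [norm_star_ξ (hT k)] at h4
  have h5 := (T k).le_of_opNorm_le ((hC k).trans (le_abs_self C)) (η k - η')
  rw [map_sub] at h5
  rw [le_div_iff₀ (by positivity)] at h2
  rw [lt_div_iff₀ (by positivity)] at h3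
  nlinarith [norm_sub_norm_le (T k (η k)) (T k η'), norm_nonneg (η k - η'), norm_nonneg (T k I.ξ)]

theorem norm_mJ_ic_mono (I : Ind K) {S S' : Set Γ} (h : S ⊆ S') (η : K) :
    ‖I.mJ (ic S) η‖ ≤ ‖I.mJ (ic S') η‖ := by
  simpa using I.norm_mJ_mono (bm_ic_Γ S') zero_le_one (F := ic S) (fun μ => by
    by_cases hμ : μ ∈ S
    · simp [hμ, h hμ]
    · simp [hμ]) η

theorem norm_mJ_ic_le (I : Ind K) (S : Set Γ) (η : K) : ‖I.mJ (ic S) η‖ ≤ ‖η‖ := by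
  simpa using I.norm_mJ_le zero_le_one (norm_ic_le S) η

/-- **quantitative weak FP** for globally slow functions -/
theorem wfp_quant (hT : T ∈ I.Q) (hζ : I.Apx l ζ) (hη : I.Apx l η) {C ε : ℝ} (hC : 0 ≤ C)
    (hε : 0 < ε) : ∃ s : Finset Γ, ∃ δ > (0 : ℝ), ∀ᶠ k in l, ∀ F : Γ → ℂ,
      (∀ μ, ‖F μ‖ ≤ C) → (∀ ν ∈ s, ∀ μ, ‖F (μ * ν) - F μ‖ ≤ δ) →
      ‖⟪ζ k, (I.m F * T - T * I.m F) (η k)⟫_ℂ‖ ≤ ε := by
  obtain ⟨M, hM, b1⟩ := hζ.bdd
  obtain ⟨M', hM', b2⟩ := hη.bdd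
  set N := 2 * C * ‖T‖ * (M + M' + 1) with hN
  have he : 0 < min 1 (ε / (2 * (N + 1))) := by positivity
  obtain ⟨B, hB, a1⟩ := hζ _ he
  obtain ⟨B', hB', a2⟩ := hη _ he
  obtain ⟨s, δ, hδ, h⟩ := FP.comm_bes hT hC (le_max_of_le_left hB : 0 ≤ max B B') (half_pos hε)
  refine ⟨s, δ, hδ, ?_⟩
  filter_upwards [a1, a2, b1, b2] with k ⟨ζ', a1, a1'⟩ ⟨η', a2, a2'⟩ b1 b2 F hF hs
  have h1 := h ζ' η' (a1.mono hB (le_max_left _ _)) (a2.mono hB' (le_max_right _ _)) F hF hs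
  set A := I.m F * T - T * I.m F
  have hA : ‖A‖ ≤ 2 * C * ‖T‖ := by
    have := I.norm_m_le hC hF
    refine (norm_sub_le_of_le (norm_mul_le _ _) (norm_mul_le _ _)).trans ?_
    nlinarith [norm_nonneg T]
  set e := min 1 (ε / (2 * (N + 1)))
  have e1 : e ≤ 1 := min_le_left _ _
  have e2 : e * (2 * (N + 1)) ≤ ε := (le_div_iff₀ (by positivity)).1 (min_le_right _ _)
  have n1 : ‖η'‖ ≤ M' + 1 := by linarith [norm_sub_norm_le η' (η k), norm_sub_rev η' (η k)]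
  have h2 : ‖⟪ζ k, A (η k - η')⟫_ℂ‖ ≤ M * (2 * C * ‖T‖ * e) :=
    (norm_inner_le_norm _ _).trans (mul_le_mul b1 (A.le_of_opNorm_le_of_le hA a2')
      (norm_nonneg _) hM)
  have h3 : ‖⟪ζ k - ζ', A η'⟫_ℂ‖ ≤ e * (2 * C * ‖T‖ * (M' + 1)) :=
    (norm_inner_le_norm _ _).trans (mul_le_mul a1' (A.le_of_opNorm_le_of_le hA n1)
      (norm_nonneg _) he.le)
  have : ⟪ζ k, A (η k)⟫_ℂ = ⟪ζ k, A (η k - η')⟫_ℂ + ⟪ζ k - ζ', A η'⟫_ℂ + ⟪ζ', A η'⟫_ℂ := by
    rw [map_sub, inner_sub_right, inner_sub_left]; ring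
  rw [this]
  have := norm_add_le_of_le (norm_add_le_of_le h2 h3) h1
  nlinarith

/-- elements of `Q` propagate concentration -/
theorem Apx.conc_Q (hη : I.Apx l η) (hT : T ∈ I.Q) {ε : ℝ} (hε : 0 < ε) :
    ∃ s : Finset Γ, ∃ δ > (0 : ℝ), ∀ᶠ k in l, ∀ (S : Set Γ) (χ : Γ → ℝ),
      (∀ μ, 0 ≤ χ μ ∧ χ μ ≤ 1) → (∀ μ ∈ S, χ μ = 1) → (∀ ν ∈ s, ∀ μ, |χ (μ * ν) - χ μ| ≤ δ) →
      ‖I.mJ (ic Sᶜ) (η k)‖ ≤ δ → ‖I.mJ (fun μ => ((1 - χ μ : ℝ) : ℂ)) (T (η k))‖ ≤ ε := by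
  obtain ⟨M, hM, b⟩ := hη.bdd
  obtain ⟨s, δ, hδ, h⟩ := wfp_quant hT (hη.Q hT) hη zero_le_one (by positivity : 0 < ε ^ 2 / 2)
  refine ⟨s, min (δ / 2) (ε ^ 2 / (2 * (‖T‖ * M * ‖T‖ + 1))), by positivity, ?_⟩
  filter_upwards [h, b] with k h b S χ h1 h2 h3 h4
  have n1 : ∀ μ, ‖((1 - χ μ : ℝ) : ℂ)‖ ≤ 1 := fun μ => by
    rw [Complex.norm_real, Real.norm_of_nonneg (by linarith [h1 μ])]; linarith [h1 μ]
  set F : Γ → ℂ := fun μ => (starRingEnd ℂ) ((1 - χ μ : ℝ) : ℂ) * ((1 - χ μ : ℝ) : ℂ) with hF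
  have n2 : ∀ μ, ‖F μ‖ ≤ 1 := fun μ => by
    simp only [hF, norm_mul, Complex.norm_conj]; exact mul_le_one₀ (n1 μ) (norm_nonneg _) (n1 μ)
  have h5 := h F n2 fun ν hν μ => by
    have := (h3 ν hν μ).trans (min_le_left _ _)
    simp only [hF, Complex.conj_ofReal, ← Complex.ofReal_mul, ← Complex.ofReal_sub,
      Complex.norm_real, Real.norm_eq_abs]
    rw [abs_le] at this ⊢
    constructor <;> nlinarith [h1 μ, h1 (μ * ν)]
  have h6 : ‖I.m F (η k)‖ ≤ ε ^ 2 / (2 * (‖T‖ * M * ‖T‖ + 1)) := by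
    refine (I.norm_m_apply_le F _).trans (le_trans ?_ (h4.trans (min_le_right _ _)))
    simpa using I.norm_mJ_mono (bm_ic_Γ Sᶜ) zero_le_one (F := F) (fun μ => by
      by_cases hμ : μ ∈ S
      · simp [hF, h2 μ hμ]
      · simpa [hμ] using n2 μ) (η k)
  have h7 : ‖⟪T (η k), T (I.m F (η k))⟫_ℂ‖ ≤ ‖T‖ * M * (‖T‖ * ‖I.m F (η k)‖) :=
    (norm_inner_le_norm _ _).trans (mul_le_mul (T.le_of_opNorm_le_of_le le_rfl b) (T.le_opNorm _)
      (norm_nonneg _) (by positivity))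
  have h8 := I.inner_mJ (bm_Γ n1) (bm_Γ n1) (T (η k)) (T (η k))
  rw [_root_.sub_apply, inner_sub_right, mul_apply_eq_comp, mul_apply_eq_comp, ← h8] at h5
  have h9 := norm_sub_norm_le ⟪I.mJ (fun μ => ((1 - χ μ : ℝ) : ℂ)) (T (η k)),
    I.mJ (fun μ => ((1 - χ μ : ℝ) : ℂ)) (T (η k))⟫_ℂ ⟪T (η k), T (I.m F (η k))⟫_ℂ
  rw [inner_self_eq_norm_sq_to_K, norm_pow, RCLike.norm_ofReal, abs_norm,
    ← inner_self_eq_norm_sq_to_K] at h9
  rw [le_div_iff₀ (by positivity)] at h6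
  refine le_of_sq_le_sq ?_ hε.le
  nlinarith [norm_nonneg (I.m F (η k))]


theorem TightSeq.congr {L : α → ℝ} (h : I.TightSeq l L η)
    (h' : Tendsto (fun k => η k - ζ k) l (𝓝 0)) : I.TightSeq l L ζ := fun ε hε => by
  obtain ⟨R, h⟩ := h (ε / 2) (by positivity)
  refine ⟨R, ?_⟩
  filter_upwards [h, Metric.tendsto_nhds.1 h' (ε / 2) (by positivity)] with k h1 h2
  have := I.norm_mJ_ic_le (Sh (L k) R)ᶜ (η k - ζ k)
  rw [map_sub, norm_sub_rev] at this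
  rw [dist_zero_right] at h2
  linarith [norm_sub_norm_le (I.mJ (ic (Sh (L k) R)ᶜ) (ζ k)) (I.mJ (ic (Sh (L k) R)ᶜ) (η k))]

theorem TightSeq.mono {L : α → ℝ} {l' : Filter α} (h : I.TightSeq l L η) (hl : l' ≤ l) :
    I.TightSeq l' L η := fun ε hε => (h ε hε).imp fun _ h => hl h

theorem TightSeq.vv {L : α → ℝ} (h : I.TightSeq l L η) (g : α → G) :
    I.TightSeq l L fun k => I.vv (g k) (η k) := fun ε hε => by
  simpa only [I.norm_mJ_vv _ (bm_ic_Γ _)] using h ε hε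


theorem TightSeq.Q {L : α → ℝ} (h : I.TightSeq l L η) (ha : I.Apx l η) (hT : T ∈ I.Q) :
    I.TightSeq l L fun k => T (η k) := fun ε hε => by
  obtain ⟨s, δ, hδ, h1⟩ := ha.conc_Q hT hε
  obtain ⟨t, ht⟩ := FP.exists_cutoff s hδ
  obtain ⟨R, h2⟩ := h δ hδ
  choose D hD using mul_mem_Sh
  obtain ⟨D₀, hD₀⟩ := (t.finite_toSet.image D).bddAbove
  refine ⟨R + D₀, ?_⟩
  filter_upwards [h1, h2] with k h1 h2
  obtain ⟨χ, c1, c2, c3, c4⟩ := ht (Sh (L k) R)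
  refine le_trans ?_ (h1 _ χ c1 c2 c4 h2)
  rw [← one_mul ‖I.mJ (fun μ => ((1 - χ μ : ℝ) : ℂ)) (T (η k))‖]
  refine I.norm_mJ_mono (BM.ofReal measurable_from_top (C := 1) fun μ => ?_) zero_le_one
    (fun μ => ?_) _
  · rw [abs_le]; constructor <;> linarith [c1 μ]
  · by_cases hμ : χ μ = 0
    · simpa [hμ] using norm_ic_le _ μ
    · obtain ⟨b, hb, h3⟩ := c3 μ hμ
      have := (hD b _ _ _ h3).2
      rw [inv_mul_cancel_right] at this
      rw [ic_of_notMem (not_not.2 (Sh_mono (by linarith [hD₀ ⟨b, hb, rfl⟩]) this)), norm_zero]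
      positivity

theorem TightSeq.add {L : α → ℝ} (h : I.TightSeq l L η) (h' : I.TightSeq l L ζ) :
    I.TightSeq l L fun k => η k + ζ k := fun ε hε => by
  obtain ⟨R, h⟩ := h (ε / 2) (by positivity)
  obtain ⟨R', h'⟩ := h' (ε / 2) (by positivity)
  refine ⟨max R R', ?_⟩
  filter_upwards [h, h'] with k h h'
  rw [map_add]
  linarith [norm_add_le (I.mJ (ic (Sh (L k) (max R R'))ᶜ) (η k))
      (I.mJ (ic (Sh (L k) (max R R'))ᶜ) (ζ k)),
    I.norm_mJ_ic_mono (Set.compl_subset_compl.2 (Sh_mono (L := L k) (le_max_left R R'))) (η k),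
    I.norm_mJ_ic_mono (Set.compl_subset_compl.2 (Sh_mono (L := L k) (le_max_right R R'))) (ζ k)]

/-- operators commuting with the position -/
theorem TightSeq.comm {L : α → ℝ} (h : I.TightSeq l L η) {S : α → K →L[ℂ] K} {C : ℝ}
    (hC : ∀ k, ‖S k‖ ≤ C) (hρ : ∀ k μ, Commute (S k) (I.ρ μ)) (hj : ∀ k, Commute (S k) I.j) :
    I.TightSeq l L fun k => S k (η k) := fun ε hε => by
  obtain ⟨R, h⟩ := h (ε / (|C| + 1)) (by positivity)
  refine ⟨R, h.mono fun k h => (I.norm_mJ_comm_le (hρ k) (hj k) (bm_ic_Γ _) _).trans ?_⟩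
  rw [le_div_iff₀ (by positivity)] at h
  nlinarith [(hC k).trans (le_abs_self C), norm_nonneg (I.mJ (ic (Sh (L k) R)ᶜ) (η k))]

theorem TightSeq.ρ {L : α → ℝ} (h : I.TightSeq l L η) (ν : Γ) :
    I.TightSeq l L fun k => I.ρ ν (η k) := fun ε hε => by
  obtain ⟨R, h⟩ := h ε hε
  obtain ⟨D, hD⟩ := mul_mem_Sh ν
  refine ⟨R + D, h.mono fun k h => le_trans ?_ h⟩
  rw [I.norm_mJ_ρ (bm_ic_Γ _)]
  exact I.norm_mJ_ic_mono (S := (ν * ·) ⁻¹' (Sh (L k) (R + D))ᶜ)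
    (fun μ hμ h => hμ (hD _ _ _ h).1) _

/-- tightness holds for every vector -/
theorem Tight.seq {L : ℕ → ℝ} (h : I.Tight L) (η : K) :
    I.TightSeq atTop L fun k => I.U (al k) η := by
  have h0 : I.TightSeq atTop L fun k => I.U (al k) I.ξ := fun ε hε =>
    (h.2 (ε ^ 2) (by positivity)).imp fun R h => h.mono fun k h => by
      rw [I.ms_eq] at h; exact le_of_sq_le_sq h hε.le
  have h1 : ∀ η ∈ Submodule.span ℂ {η | ∃ a ∈ I.C, ∃ μ, η = a (I.ρ μ I.ξ)},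
      I.TightSeq atTop L fun k => I.U (al k) η := fun η hη => by
    induction hη using Submodule.span_induction with
    | mem η hη =>
      obtain ⟨a, ha, ν, rfl⟩ := hη
      have := (h0.ρ ν).comm (S := fun k : ℕ => I.U (al k) * a * I.U (al k)⁻¹) (C := 1 * ‖a‖ * 1)
        (fun k => norm_mul₃_le.trans (by gcongr <;> exact URep.norm_le _ _))
        (fun k => I.Cρ _ (I.conj_C a ha _)) fun k => I.Cj _ (I.conj_C a ha _)
      convert this using 2 with k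
      rw [← mul_apply_eq_comp (I.ρ ν), ← (I.Uρ _ ν).eq]
      simp only [mul_apply_eq_comp, URep.inv_apply_apply]
    | zero => exact fun ε hε => ⟨0, by simp [hε.le]⟩
    | add x y _ _ hx hy => simpa only [map_add] using hx.add hy
    | smul c x _ hx =>
      simpa using hx.comm (S := fun _ => c • (1 : K →L[ℂ] K)) (fun _ => le_rfl)
        (fun _ _ => (Commute.one_left _).smul_left c) fun _ => (Commute.one_left _).smul_left c
  intro ε hε
  obtain ⟨η', hη', h2⟩ := I.dense.exists_dist_lt η (half_pos hε)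
  obtain ⟨R, h3⟩ := h1 η' hη' _ (half_pos hε)
  refine ⟨R, h3.mono fun k h3 => ?_⟩
  have := I.norm_mJ_ic_le (Sh (L k) R)ᶜ (I.U (al k) (η - η'))
  rw [URep.norm_map, map_sub, map_sub, ← dist_eq_norm η] at this
  linarith [norm_sub_norm_le (I.mJ (ic (Sh (L k) R)ᶜ) (I.U (al k) η))
    (I.mJ (ic (Sh (L k) R)ᶜ) (I.U (al k) η'))]

theorem TightSeq.slow {L : ℕ → ℝ} {l : Filter ℕ} (hl : l ≤ atTop) {η : ℕ → K}
    (h : I.TightSeq l L η) {F : ℕ → Γ → ℂ} (hF : ShSlow L F) : I.Slow l F η := fun ε hε =>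
  let ⟨R, h⟩ := h ε hε
  ⟨fun k => Sh (L k) R, h, fun ν ε' hε' => hl (hF ν R ε' hε')⟩

/-- functions that are uniformly small on the shells -/
theorem TightSeq.tendsto_mJ {L : α → ℝ} (h : I.TightSeq l L η) {C : ℝ} (hη : ∀ᶠ k in l, ‖η k‖ ≤ C)
    {F : α → Γ → ℂ} {D : ℝ} (hF : ∀ k μ, ‖F k μ‖ ≤ D)
    (h0 : ∀ R ε : ℝ, 0 < ε → ∀ᶠ k in l, ∀ μ ∈ Sh (L k) R, ‖F k μ‖ ≤ ε) :
    Tendsto (fun k => I.mJ (F k) (η k)) l (𝓝 0) := by
  refine Metric.tendsto_nhds.2 fun ε hε => ?_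
  obtain ⟨R, h⟩ := h (ε / (3 * (|D| + 1))) (by positivity)
  filter_upwards [h, hη, h0 R (ε / (3 * (|C| + 1))) (by positivity)] with k h1 h2 h3
  have := I.norm_mJ_le_split (by positivity) (abs_nonneg D) h3
    (fun μ => (hF k μ).trans (le_abs_self D)) (η k)
  rw [le_div_iff₀ (by positivity)] at h1
  have h4 : ε / (3 * (|C| + 1)) * ‖η k‖ ≤ ε / 3 := by
    rw [div_mul_eq_mul_div, div_le_div_iff₀ (by positivity) (by positivity)]
    nlinarith [le_abs_self C]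
  rw [dist_zero_right]
  nlinarith [norm_nonneg (I.mJ (ic (Sh (L k) R)ᶜ) (η k))]



/-- **weak FP** -/
theorem wfp {F : α → Γ → ℂ} {C : ℝ} (hF : ∀ k μ, ‖F k μ‖ ≤ C) (hT : T ∈ I.Q) (hζ : I.Apx l ζ)
    (hη : I.Apx l η) (hs : I.Slow l F η) :
    Tendsto (fun k => ⟪ζ k, I.m (F k) (T (η k))⟫_ℂ - ⟪ζ k, T (I.m (F k) (η k))⟫_ℂ) l (𝓝 0) := by
  refine Metric.tendsto_nhds.2 fun ε hε => ?_
  have hC : ∀ k μ, ‖F k μ‖ ≤ |C| := fun k μ => (hF k μ).trans (le_abs_self C)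
  obtain ⟨M, hM, b⟩ := hζ.bdd
  set e := ε / (4 * (M * |C| * (‖T‖ + 1) + 1)) with he
  have he0 : 0 < e := by positivity
  obtain ⟨s₁, δ₁, hδ₁, h₁⟩ := wfp_quant hT hζ hη (abs_nonneg C) (by positivity : 0 < ε / 4)
  obtain ⟨s₂, δ₂, hδ₂, h₂⟩ := hη.conc_Q hT he0
  classical
  obtain ⟨t, ht⟩ := FP.exists_cutoff (s₁ ∪ s₂)
    (by positivity : 0 < min δ₂ (δ₁ / (2 * (|C| + 1))))
  obtain ⟨S, h₃, h₄⟩ := hs (min δ₂ e) (by positivity)
  have h₅ := (eventually_all_finset t).2 fun b _ => (h₄ b (δ₁ / 4) (by positivity)).and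
    ((eventually_all_finset s₁).2 fun ν _ => h₄ (b * ν) (δ₁ / 4) (by positivity))
  filter_upwards [h₁, h₂, h₃, h₅, b] with k h₁ h₂ h₃ h₅ b
  obtain ⟨χ, c1, c2, c3, c4⟩ := ht (S k)
  have n1 : ∀ μ, ‖(χ μ : ℂ)‖ ≤ 1 := fun μ => by
    rw [Complex.norm_real, Real.norm_of_nonneg (c1 μ).1]; exact (c1 μ).2
  have n2 : ∀ μ, ‖((1 - χ μ : ℝ) : ℂ)‖ ≤ 1 := fun μ => by
    rw [Complex.norm_real, Real.norm_of_nonneg (by linarith [c1 μ])]; linarith [c1 μ]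
  have n3 : ∀ μ, ‖F k μ * χ μ‖ ≤ |C| := fun μ => by
    rw [norm_mul]; exact (mul_le_of_le_one_right (norm_nonneg _) (n1 μ)).trans (hC k μ)
  replace h₁ := h₁ (fun μ => F k μ * χ μ) n3 fun ν hν μ => by
    have d1 : ‖F k (μ * ν) * ((χ (μ * ν) - χ μ : ℝ) : ℂ)‖ ≤ δ₁ / 2 := by
      have := (le_div_iff₀ (by positivity)).1
        ((c4 ν (Finset.mem_union_left _ hν) μ).trans (min_le_right _ _))
      rw [norm_mul, Complex.norm_real, Real.norm_eq_abs]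
      nlinarith [hC k (μ * ν), abs_nonneg (χ (μ * ν) - χ μ)]
    have d2 : ‖(F k (μ * ν) - F k μ) * χ μ‖ ≤ δ₁ / 2 := by
      by_cases hμ : χ μ = 0
      · simpa [hμ] using (half_pos hδ₁).le
      obtain ⟨b, hb, h⟩ := c3 μ hμ
      have d3 := (h₅ b hb).1 _ h
      have d4 := (h₅ b hb).2 ν hν _ h
      rw [← mul_assoc] at d4
      rw [inv_mul_cancel_right] at d3 d4
      rw [norm_mul]
      refine (mul_le_of_le_one_right (norm_nonneg _) (n1 μ)).trans ?_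
      have := norm_sub_le_of_le d4 d3
      rw [sub_sub_sub_cancel_right] at this
      linarith
    have := norm_add_le_of_le d1 d2
    rw [add_halves] at this
    refine le_of_eq_of_le (congrArg _ ?_) this
    push_cast; ring
  replace h₂ := h₂ (S k) χ c1 c2 (fun ν hν μ =>
    (c4 ν (Finset.mem_union_right _ hν) μ).trans (min_le_left _ _)) (h₃.trans (min_le_left _ _))
  set G : Γ → ℂ := fun μ => F k μ * ((1 - χ μ : ℝ) : ℂ) with hG
  have n4 : ∀ μ, ‖G μ‖ ≤ |C| * ‖((1 - χ μ : ℝ) : ℂ)‖ := fun μ => by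
    simp only [hG, norm_mul]; gcongr; exact hC k μ
  have g1 : ‖I.m G (T (η k))‖ ≤ |C| * e := (I.norm_m_apply_le _ _).trans
    ((I.norm_mJ_mono (bm_Γ n2) (abs_nonneg C) n4 _).trans (by gcongr))
  have g2 : ‖I.m G (η k)‖ ≤ |C| * e := (I.norm_m_apply_le _ _).trans
    ((I.norm_mJ_mono (bm_ic_Γ (S k)ᶜ) (abs_nonneg C) (fun μ => by
      by_cases hμ : μ ∈ S k
      · simp [hG, c2 μ hμ, hμ]
      · simpa [hμ] using (n4 μ).trans (mul_le_of_le_one_right (abs_nonneg C) (n2 μ))) _).trans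
      (by gcongr; exact h₃.trans (min_le_right _ _)))
  have e1 : I.m (F k) = I.m (fun μ => F k μ * χ μ) + I.m G := by
    rw [← mP_E, ← I.mP.E_add (bm_Γ n3) ((bm_Γ (hC k)).mul (bm_Γ n2))]
    congr 1; funext μ; push_cast; ring
  have g3 : ‖⟪ζ k, I.m G (T (η k)) - T (I.m G (η k))⟫_ℂ‖ ≤ M * (|C| * e + ‖T‖ * (|C| * e)) :=
    (norm_inner_le_norm _ _).trans (mul_le_mul b (norm_sub_le_of_le g1
      (T.le_of_opNorm_le_of_le le_rfl g2)) (norm_nonneg _) hM)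
  have g4 := norm_add_le_of_le h₁ g3
  have e2 : e * (4 * (M * |C| * (‖T‖ + 1) + 1)) = ε := div_mul_cancel₀ _ (by positivity)
  rw [dist_zero_right]
  refine lt_of_le_of_lt (le_of_eq_of_le (congrArg _ ?_) g4) (by nlinarith)
  rw [e1]
  simp only [_root_.add_apply, _root_.sub_apply, mul_apply_eq_comp, map_add, inner_add_right,
    inner_sub_right]
  ring

/-- FP for the group -/
theorem fpU_slow {F : α → Γ → ℂ} {C : ℝ} (hF : ∀ k μ, ‖F k μ‖ ≤ C) (hζ : I.Apx l ζ)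
    (hη : I.Apx l η) (hs : I.Slow l F η) {q : α → G} {q' : G} (hq : Tendsto q l (𝓝 q')) :
    Tendsto (fun k => ⟪I.U (q k) (ζ k), I.m (F k) (I.U (q k) (η k))⟫_ℂ
      - ⟪ζ k, I.m (F k) (η k)⟫_ℂ) l (𝓝 0) := by
  have hy : ∀ g, ‖I.y g‖ ≤ 1 := fun g =>
    ContinuousLinearMap.opNorm_le_bound _ zero_le_one fun x => by rw [I.norm_y, one_mul]
  have key : ∀ {η : α → K}, I.Apx l η →
      Tendsto (fun k => ‖I.y (q k) (η k) - I.y q' (η k)‖) l (𝓝 0) := fun hη => by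
    have := (hη.tendsto_Q (T := fun k => I.y (q k) - I.y q') (fun k => sub_Q (I.y_Q _) (I.y_Q _))
      (fun k => norm_sub_le_of_le (hy _) (hy _)) (tendsto_zero_iff_norm_tendsto_zero.2 ?_)).norm
    · simpa using this
    · refine (tendsto_iff_norm_sub_tendsto_zero.1
        ((I.tendsto_star_y_ξ.tendsto q').comp hq)).congr fun k => ?_
      rw [← norm_star_ξ (sub_Q (I.y_Q _) (I.y_Q _)), star_sub]
      rfl
  obtain ⟨M, hM, b1⟩ := hζ.bdd
  obtain ⟨M', hM', b2⟩ := hη.bdd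
  have hm : ∀ k x, ‖I.m (F k) x‖ ≤ |C| * ‖x‖ := fun k => (I.m (F k)).le_of_opNorm_le
    (I.norm_m_le (abs_nonneg C) fun μ => (hF k μ).trans (le_abs_self C))
  have t1 : Tendsto (fun k => ⟪I.y (q k) (ζ k) - I.y q' (ζ k), I.m (F k) (I.y (q k) (η k))⟫_ℂ) l
      (𝓝 0) := by
    refine squeeze_zero_norm' ?_ (by simpa using (key hζ).mul_const (|C| * M'))
    filter_upwards [b2] with k b2
    refine (norm_inner_le_norm _ _).trans (mul_le_mul_of_nonneg_left ((hm _ _).trans ?_)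
      (norm_nonneg _))
    rw [I.norm_y]; gcongr
  have t2 : Tendsto (fun k => ⟪I.y q' (ζ k), I.m (F k) (I.y (q k) (η k) - I.y q' (η k))⟫_ℂ) l
      (𝓝 0) := by
    refine squeeze_zero_norm' ?_ (by simpa using ((key hη).const_mul |C|).const_mul M)
    filter_upwards [b1] with k b1
    exact (norm_inner_le_norm _ _).trans (mul_le_mul (by rwa [I.norm_y]) (hm _ _) (norm_nonneg _) hM)
  have t3 := (t1.add t2).add (wfp hF (I.y_Q q') (hζ.Q (I.y_Q q')) hη hs)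
  simp only [add_zero] at t3
  refine t3.congr fun k => ?_
  have e1 : I.m (F k) (I.vv (q k) (I.y (q k) (η k))) = I.vv (q k) (I.m (F k) (I.y (q k) (η k))) := by
    rw [← mul_apply_eq_comp, ← (I.vv_m _ (bm_Γ (hF k))).eq, mul_apply_eq_comp]
  rw [I.U_eq, mul_apply_eq_comp, mul_apply_eq_comp, e1,
    ContinuousLinearMap.inner_map_map_of_mem_unitary (I.vv_unitary _),
    ContinuousLinearMap.inner_map_map_of_mem_unitary (I.y_un _), map_sub, inner_sub_left,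
    inner_sub_right]
  ring


/-- FP for the group, functions slow on the shells -/
theorem fpU {L : ℕ → ℝ} (hL : I.Tight L) {F : ℕ → Γ → ℂ} {C : ℝ} (hF : ∀ k μ, ‖F k μ‖ ≤ C)
    (h : ShSlow L F) {q : ℕ → G} {q' : G} (hq : Tendsto q atTop (𝓝 q')) (ζ η : K) :
    Tendsto (fun k => ⟪I.U (q k) (I.U (al k) ζ), I.m (F k) (I.U (q k) (I.U (al k) η))⟫_ℂ
      - ⟪I.U (al k) ζ, I.m (F k) (I.U (al k) η)⟫_ℂ) atTop (𝓝 0) :=
  fpU_slow hF (I.apx_U _ _ ζ) (I.apx_U _ _ η) ((hL.seq η).slow le_rfl h) hq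

variable {L : ℕ → ℝ} {Φ : V → POVM V K} {f : V → ℂ}

theorem IsPro.tendsto_m (hΦ : I.IsPro Φ) (hf : BM f) (h0 : Hom0 f) (hc : ContinuousOn f {0}ᶜ)
    (η : K) : Tendsto (fun k : ℕ => I.m (fun μ => f (pt μ)) (I.U (al k) η)
      - I.U (al k) ((Φ (ev 0)).E f η)) atTop (𝓝 0) := by
  have := ((ContinuousLinearMap.adjoint I.J).continuous.tendsto 0).comp (hΦ.strong f hf h0 hc η)
  simpa only [Function.comp_def, map_sub, map_zero, I.adj_J_J, I.m_apply] using this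

theorem IsPro.tendsto_σ (hΦ : I.IsPro Φ) (hf : BM f) (h0 : Hom0 f) (hc : ContinuousOn f {0}ᶜ)
    (η : K) : Tendsto (fun k : ℕ => I.σ k (I.m fun μ => f (pt μ)) η) atTop
      (𝓝 ((Φ (ev 0)).E f η)) := by
  have := (hΦ.tendsto_m hf h0 hc η).norm
  rw [norm_zero] at this
  refine tendsto_iff_norm_sub_tendsto_zero.2 (this.congr fun k => ?_)
  rw [← I.U.norm_map (al k)⁻¹, map_sub, URep.inv_apply_apply]
  rfl

/-- a weak limit times a boundary function -/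
theorem IsPro.wtends_mul (hΦ : I.IsPro Φ) (hf : BM f) (h0 : Hom0 f) (hc : ContinuousOn f {0}ᶜ)
    {l : Filter ℕ} (hl : l ≤ atTop) {F : ℕ → Γ → ℂ} {C : ℝ} (hF : ∀ k μ, ‖F k μ‖ ≤ C)
    (hT : WTends l (fun k => I.σ k (I.m (F k))) T) :
    WTends l (fun k => I.σ k (I.m fun μ => F k μ * f (pt μ))) (T * (Φ (ev 0)).E f) ∧
    WTends l (fun k => I.σ k (I.m fun μ => F k μ * f (pt μ))) ((Φ (ev 0)).E f * T) := by
  have hm : ∀ k (x : LG K), ‖mulG K (F k) x‖ ≤ |C| * ‖x‖ := fun k => (mulG K (F k)).le_of_opNorm_le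
    (norm_mulG_le (abs_nonneg C) fun μ => (hF k μ).trans (le_abs_self C))
  have bf : BM fun μ => f (pt μ) := hf.comp measurable_from_top
  constructor
  · intro ζ η
    have t : Tendsto (fun k : ℕ => ⟪I.J (I.U (al k) ζ), mulG K (F k)
        (I.mJ (fun μ => f (pt μ)) (I.U (al k) η)
          - I.J (I.U (al k) ((Φ (ev 0)).E f η)))⟫_ℂ) l (𝓝 0) := by
      refine squeeze_zero_norm (fun k => (norm_inner_le_norm _ _).trans ?_) (by
        simpa using (((hΦ.strong f hf h0 hc η).mono_left hl).norm.const_mul |C|).const_mul ‖ζ‖)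
      rw [I.norm_J, URep.norm_map]
      exact mul_le_mul_of_nonneg_left (hm _ _) (norm_nonneg _)
    have := t.add (hT ζ ((Φ (ev 0)).E f η))
    rw [zero_add] at this
    refine this.congr fun k => ?_
    rw [I.inner_σ, I.inner_σ, I.inner_m, I.inner_m, I.mJ_eq (bm_Γ (hF k)), I.mJ_eq bf,
      I.mJ_eq ((bm_Γ (hF k)).mul bf), map_sub, inner_sub_right, mulG_mulG (bm_Γ (hF k)) bf,
      sub_add_cancel]
  · intro ζ η
    have t : Tendsto (fun k : ℕ => ⟪I.mJ (fun μ => (starRingEnd ℂ) (f (pt μ))) (I.U (al k) ζ)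
        - I.J (I.U (al k) ((Φ (ev 0)).E (fun a => (starRingEnd ℂ) (f a)) ζ)),
          mulG K (F k) (I.J (I.U (al k) η))⟫_ℂ) l (𝓝 0) := by
      refine squeeze_zero_norm (fun k => (norm_inner_le_norm _ _).trans ?_) (by
        simpa using ((hΦ.strong _ hf.conj (fun z hz a => by simp only [h0 z hz a])
          (Complex.continuous_conj.comp_continuousOn hc) ζ).mono_left hl).norm.mul_const
            (|C| * ‖η‖))
      refine mul_le_mul_of_nonneg_left ((hm _ _).trans ?_) (norm_nonneg _)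
      rw [I.norm_J, URep.norm_map]
    have := t.add (hT ((Φ (ev 0)).E (fun a => (starRingEnd ℂ) (f a)) ζ) η)
    rw [zero_add, ← POVM.E_star _ hf, ContinuousLinearMap.star_eq_adjoint,
      ContinuousLinearMap.adjoint_inner_left] at this
    refine this.congr fun k => ?_
    rw [I.inner_σ, I.inner_σ, I.inner_m, I.inner_m, I.mJ_eq (bm_Γ (hF k)), I.mJ_eq bf.conj,
      I.mJ_eq ((bm_Γ (hF k)).mul bf), inner_sub_left, sub_add_cancel, ← inner_mulG bf,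
      mulG_mulG bf (bm_Γ (hF k))]
    simp only [mul_comm]

theorem tendsto_inner_Q (hT : T ∈ I.Q) (ζ η : K) :
    Tendsto (fun k : ℕ => ⟪T (I.U (al k) ζ), T (I.U (al k) η)⟫_ℂ) atTop
      (𝓝 (I.τ (star T * T) * ⟪ζ, η⟫_ℂ)) := by
  have := I.mix_σ (mul_Q (star_Q hT) hT) ζ η
  simpa only [I.inner_σ, mul_apply_eq_comp, ContinuousLinearMap.star_eq_adjoint,
    ContinuousLinearMap.adjoint_inner_right, _root_.smul_apply, one_apply_eq_self,
    inner_smul_right] using this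

theorem IsPro.tendsto_inner_m (hΦ : I.IsPro Φ) (hL : I.Tight L) (hT : T ∈ I.Q) (hf : BM f)
    (h0 : Hom0 f) (hc : ContinuousOn f {0}ᶜ) (ζ η : K) :
    Tendsto (fun k : ℕ => ⟪T (I.U (al k) ζ), I.m (fun μ => f (pt μ)) (T (I.U (al k) η))⟫_ℂ) atTop
      (𝓝 (I.τ (star T * T) * ⟪ζ, (Φ (ev 0)).E f η⟫_ℂ)) := by
  obtain ⟨C, hC⟩ := hf.2
  have t1 := wfp (F := fun (_ : ℕ) μ => f (pt μ)) (fun _ μ => hC _) hT
    ((I.apx_U atTop (fun k : ℕ => al k) ζ).Q hT) (I.apx_U atTop (fun k : ℕ => al k) η)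
    ((hL.seq η).slow le_rfl (shSlow_pt hL.1 h0 hc))
  have t2 : Tendsto (fun k : ℕ => ⟪T (I.U (al k) ζ), T (I.m (fun μ => f (pt μ)) (I.U (al k) η)
      - I.U (al k) ((Φ (ev 0)).E f η))⟫_ℂ) atTop (𝓝 0) := by
    refine squeeze_zero_norm (fun k => (norm_inner_le_norm _ _).trans ?_) (by
      simpa using ((hΦ.tendsto_m hf h0 hc η).norm.const_mul ‖T‖).const_mul (‖T‖ * ‖ζ‖))
    exact mul_le_mul (by simpa using T.le_opNorm (I.U (al k) ζ)) (T.le_opNorm _) (norm_nonneg _)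
      (by positivity)
  have := (t1.add t2).add (tendsto_inner_Q hT ζ ((Φ (ev 0)).E f η))
  simp only [zero_add] at this
  refine this.congr fun k => ?_
  rw [map_sub, inner_sub_right]
  ring

/-- **strong FP** -/
theorem IsPro.sfp (hΦ : I.IsPro Φ) (hL : I.Tight L) (hT : T ∈ I.Q) (hf : BM f) (h0 : Hom0 f)
    (hc : ContinuousOn f {0}ᶜ) (η : K) :
    Tendsto (fun k : ℕ => I.mJ (fun μ => f (pt μ)) (T (I.U (al k) η))
      - I.J (T (I.U (al k) ((Φ (ev 0)).E f η)))) atTop (𝓝 0) := by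
  have bf : BM fun μ => f (pt μ) := hf.comp measurable_from_top
  have hc' := Complex.continuous_conj.comp_continuousOn hc
  have t1 := hΦ.tendsto_inner_m hL hT (hf.conj.mul hf) (fun z hz a => by simp only [h0 z hz a])
    (hc'.mul hc) η η
  have t2 := hΦ.tendsto_inner_m hL hT hf h0 hc ((Φ (ev 0)).E f η) η
  have t3 := tendsto_inner_Q hT ((Φ (ev 0)).E f η) ((Φ (ev 0)).E f η)
  rw [hΦ.pvm _ _ _ hf.conj hf, ← POVM.E_star _ hf, mul_apply_eq_comp,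
    ContinuousLinearMap.star_eq_adjoint ((Φ (ev 0)).E f),
    ContinuousLinearMap.adjoint_inner_right] at t1
  have r := Complex.continuous_re.tendsto
    (I.τ (star T * T) * ⟪(Φ (ev 0)).E f η, (Φ (ev 0)).E f η⟫_ℂ)
  have := (((r.comp t3).sub ((r.comp t2).const_mul 2)).add (r.comp t1)).sqrt
  rw [show ∀ x : ℝ, x - 2 * x + x = 0 from fun x => by ring, Real.sqrt_zero] at this
  refine tendsto_zero_iff_norm_tendsto_zero.2 (this.congr fun k => ?_)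
  rw [norm_sub_rev, ← Real.sqrt_sq (norm_nonneg (_ - _)), norm_sub_sq (𝕜 := ℂ),
    ← inner_self_eq_norm_sq (𝕜 := ℂ), ← inner_self_eq_norm_sq (𝕜 := ℂ), I.inner_J,
    I.inner_mJ bf bf, ← I.inner_m]
  rfl

end Ind

end Crest.Agent.N111
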