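import Crest.Agent.N111.Lib.All
import Crest.Agent.N111.I.Rel

/-! # Row 111 API: rows, the position POVM, the algebras `N` and `Q` (fill the proofs IN PLACE). -/

set_option autoImplicit false
set_option linter.unusedSectionVars false
set_option linter.unusedVariables false

namespace Crest.Agent.N111

open MeasureTheory Topology Filter
open scoped InnerProductSpace

variable {K : Type} [NormedAddCommGroup K] [InnerProductSpace ℂ K] [CompleteSpace K]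

/-! ### `ℓ²(Γ; K)` -/

theorem LG.hasSum_norm_sq (x : LG K) : HasSum (fun μ => ‖x μ‖ ^ 2) (‖x‖ ^ 2) := by
  have h := lp.hasSum_norm (p := 2) (by norm_num) x
  simpa only [ENNReal.toReal_ofNat, Real.rpow_ofNat] using h
theorem LG.hasSum_inner (x y : LG K) : HasSum (fun μ => ⟪x μ, y μ⟫_ℂ) ⟪x, y⟫_ℂ :=
  lp.hasSum_inner x y
theorem LG.sum_le (x : LG K) (F : Finset Γ) : ∑ μ ∈ F, ‖x μ‖ ^ 2 ≤ ‖x‖ ^ 2 :=
  sum_le_hasSum F (fun _ _ => by positivity) (LG.hasSum_norm_sq x)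
theorem LG.norm_sq_le {x : LG K} {D : ℝ} (h : ∀ F : Finset Γ, ∑ μ ∈ F, ‖x μ‖ ^ 2 ≤ D) :
    ‖x‖ ^ 2 ≤ D := hasSum_le_of_sum_le (LG.hasSum_norm_sq x) h
theorem LG.norm_le {x : LG K} {C : ℝ} (hC : 0 ≤ C)
    (h : ∀ F : Finset Γ, ∑ μ ∈ F, ‖x μ‖ ^ 2 ≤ C ^ 2) : ‖x‖ ≤ C :=
  (pow_le_pow_iff_left₀ (norm_nonneg _) hC two_ne_zero).1 (LG.norm_sq_le h)
theorem LG.norm_le_of_le {x y : LG K} {C : ℝ} (hC : 0 ≤ C) (h : ∀ μ, ‖x μ‖ ≤ C * ‖y μ‖) :
    ‖x‖ ≤ C * ‖y‖ := by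
  refine LG.norm_le (by positivity) fun F => ?_
  calc ∑ μ ∈ F, ‖x μ‖ ^ 2 ≤ ∑ μ ∈ F, C ^ 2 * ‖y μ‖ ^ 2 := Finset.sum_le_sum fun μ _ => by
        rw [← mul_pow]; exact pow_le_pow_left₀ (norm_nonneg _) (h μ) 2
    _ ≤ (C * ‖y‖) ^ 2 := by
        rw [← Finset.mul_sum, mul_pow]
        exact mul_le_mul_of_nonneg_left (LG.sum_le y F) (by positivity)
/-- a vector supported on a finite set -/
theorem LG.norm_sq_eq_sum {x : LG K} {F : Finset Γ} (h : ∀ μ, μ ∉ F → x μ = 0) :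
    ‖x‖ ^ 2 = ∑ μ ∈ F, ‖x μ‖ ^ 2 :=
  (LG.hasSum_norm_sq x).unique (hasSum_sum_of_ne_finset_zero fun μ hμ => by simp [h μ hμ])
theorem LG.ext' {x y : LG K} (h : ∀ μ, x μ = y μ) : x = y := lp.ext (funext h)
theorem LG.add_apply (x y : LG K) (μ : Γ) : (x + y) μ = x μ + y μ := by
  rw [lp.coeFn_add, Pi.add_apply]
theorem LG.sub_apply (x y : LG K) (μ : Γ) : (x - y) μ = x μ - y μ := by
  rw [lp.coeFn_sub, Pi.sub_apply]
theorem LG.smul_apply (c : ℂ) (x : LG K) (μ : Γ) : (c • x) μ = c • x μ := by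
  rw [lp.coeFn_smul, Pi.smul_apply]
theorem LG.norm_eq_of_equiv {x y : LG K} (e : Γ ≃ Γ) (h : ∀ μ, ‖x (e μ)‖ = ‖y μ‖) : ‖x‖ = ‖y‖ := by
  have h1 := e.hasSum_iff.2 (LG.hasSum_norm_sq x)
  have h2 : (fun μ => ‖x μ‖ ^ 2) ∘ e = fun μ => ‖y μ‖ ^ 2 := funext fun μ => by simp [h]
  rw [h2] at h1
  exact (pow_left_inj₀ (norm_nonneg _) (norm_nonneg _) two_ne_zero).1
    (h1.unique (LG.hasSum_norm_sq y))
theorem LG.inner_eq_of_equiv {x y x' y' : LG K} (e : Γ ≃ Γ)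
    (h : ∀ μ, ⟪x (e μ), y (e μ)⟫_ℂ = ⟪x' μ, y' μ⟫_ℂ) : ⟪x, y⟫_ℂ = ⟪x', y'⟫_ℂ := by
  have h1 := e.hasSum_iff.2 (LG.hasSum_inner x y)
  have h2 : (fun μ => ⟪x μ, y μ⟫_ℂ) ∘ e = fun μ => ⟪x' μ, y' μ⟫_ℂ := funext fun μ => by simp [h]
  rw [h2] at h1
  exact h1.unique (LG.hasSum_inner x' y')

theorem RowBd.abs {T : Γ → K →L[ℂ] K} {C : ℝ} (h : RowBd T C) : RowBd T |C| := fun η F => by
  rw [sq_abs]; exact h η F

theorem rows_apply {T : Γ → K →L[ℂ] K} {C : ℝ} (h : RowBd T C) (η : K) (μ : Γ) :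
    rows T η μ = T μ η := by
  have hm : ∀ η, Memℓp (fun μ => T μ η) 2 := fun η => memℓp_gen' (C := C ^ 2 * ‖η‖ ^ 2) fun F => by
    simpa using h η F
  have hex : ∃ S : K →L[ℂ] LG K, ∀ η μ, S η μ = T μ η := by
    refine ⟨LinearMap.mkContinuous
      { toFun := fun η => ⟨fun μ => T μ η, hm η⟩
        map_add' := fun a b => lp.ext (funext fun μ => map_add (T μ) a b)
        map_smul' := fun c a => lp.ext (funext fun μ => map_smul (T μ) c a) } |C| fun η => ?_,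
      fun _ _ => rfl⟩
    refine LG.norm_le (by positivity) fun F => ?_
    rw [mul_pow]
    exact h.abs η F
  rw [rows, dif_pos hex]
  exact hex.choose_spec η μ
theorem norm_rows_apply_le {T : Γ → K →L[ℂ] K} {C : ℝ} (hC : 0 ≤ C) (h : RowBd T C) (η : K) :
    ‖rows T η‖ ≤ C * ‖η‖ := by
  refine LG.norm_le (by positivity) fun F => ?_
  simp only [rows_apply h, mul_pow]
  exact h η F
theorem norm_rows_le {T : Γ → K →L[ℂ] K} {C : ℝ} (hC : 0 ≤ C) (h : RowBd T C) : ‖rows T‖ ≤ C :=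
  ContinuousLinearMap.opNorm_le_bound _ hC (norm_rows_apply_le hC h)

open Classical in
/-- multiplication by a bounded function on `ℓ²(Γ; K)` -/
noncomputable def mulG (K : Type) [NormedAddCommGroup K] [InnerProductSpace ℂ K] (F : Γ → ℂ) :
    LG K →L[ℂ] LG K :=
  if h : ∃ S : LG K →L[ℂ] LG K, ∀ x μ, S x μ = F μ • x μ then h.choose else 0

theorem bm_Γ {F : Γ → ℂ} {C : ℝ} (h : ∀ μ, ‖F μ‖ ≤ C) : BM F := ⟨measurable_from_top, C, h⟩
theorem bm_ic_Γ (S : Set Γ) : BM (ic S) := bm_Γ (norm_ic_le S)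

theorem mulG_apply {F : Γ → ℂ} (hF : BM F) (x : LG K) (μ : Γ) : mulG K F x μ = F μ • x μ := by
  obtain ⟨C, hC0, hC⟩ := hF.exists_nonneg
  have hb : ∀ (x : LG K) (S : Finset Γ), ∑ μ ∈ S, ‖F μ • x μ‖ ^ 2 ≤ (C * ‖x‖) ^ 2 := fun x S => by
    calc ∑ μ ∈ S, ‖F μ • x μ‖ ^ 2 ≤ ∑ μ ∈ S, C ^ 2 * ‖x μ‖ ^ 2 := Finset.sum_le_sum fun μ _ => by
          rw [norm_smul, mul_pow]
          gcongr
          exact hC μ
      _ ≤ (C * ‖x‖) ^ 2 := by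
          rw [← Finset.mul_sum, mul_pow]
          exact mul_le_mul_of_nonneg_left (LG.sum_le x S) (by positivity)
  have hm : ∀ x : LG K, Memℓp (fun μ => F μ • x μ) 2 := fun x =>
    memℓp_gen' (C := (C * ‖x‖) ^ 2) fun S => by simpa using hb x S
  have hex : ∃ S : LG K →L[ℂ] LG K, ∀ x μ, S x μ = F μ • x μ := by
    refine ⟨LinearMap.mkContinuous
      { toFun := fun x => ⟨fun μ => F μ • x μ, hm x⟩
        map_add' := fun a b => lp.ext (funext fun μ => ?_)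
        map_smul' := fun c a => lp.ext (funext fun μ => ?_) } C fun x => ?_,
      fun _ _ => rfl⟩
    · change F μ • (a + b) μ = F μ • a μ + F μ • b μ
      rw [LG.add_apply, smul_add]
    · change F μ • (c • a) μ = c • F μ • a μ
      rw [LG.smul_apply, smul_comm]
    · exact LG.norm_le (by positivity) (hb x)
  rw [mulG, dif_pos hex]
  exact hex.choose_spec x μ
theorem norm_mulG_apply_le {F : Γ → ℂ} {C : ℝ} (hC : 0 ≤ C) (h : ∀ μ, ‖F μ‖ ≤ C) (x : LG K) :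
    ‖mulG K F x‖ ≤ C * ‖x‖ :=
  LG.norm_le_of_le hC fun μ => by
    rw [mulG_apply (bm_Γ h), norm_smul]
    exact mul_le_mul_of_nonneg_right (h μ) (norm_nonneg _)
theorem norm_mulG_le {F : Γ → ℂ} {C : ℝ} (hC : 0 ≤ C) (h : ∀ μ, ‖F μ‖ ≤ C) : ‖mulG K F‖ ≤ C :=
  ContinuousLinearMap.opNorm_le_bound _ hC (norm_mulG_apply_le hC h)
theorem mulG_mulG {F F' : Γ → ℂ} (hF : BM F) (hF' : BM F') (x : LG K) :
    mulG K F (mulG K F' x) = mulG K (fun μ => F μ * F' μ) x := LG.ext' fun μ => by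
  rw [mulG_apply hF, mulG_apply hF', mulG_apply (hF.mul hF'), mul_smul]
theorem inner_mulG {F : Γ → ℂ} (hF : BM F) (x y : LG K) :
    ⟪x, mulG K F y⟫_ℂ = ⟪mulG K (fun μ => (starRingEnd ℂ) (F μ)) x, y⟫_ℂ :=
  LG.inner_eq_of_equiv (Equiv.refl Γ) fun μ => by
    simp only [Equiv.refl_apply, mulG_apply hF, mulG_apply hF.conj, inner_smul_left,
      inner_smul_right, Complex.conj_conj]

namespace Ind

variable (I : Ind K)

/-! ### `J`, `mJ`, `m` -/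

theorem nontrivial (I : Ind K) : Nontrivial K := ⟨⟨I.ξ, 0, I.ξ_ne⟩⟩
theorem one_ne_zero (I : Ind K) : (1 : K →L[ℂ] K) ≠ 0 := fun h =>
  I.ξ_ne (congrArg (fun T : K →L[ℂ] K => T I.ξ) h)
theorem norm_j_apply_le (η : K) : ‖I.j η‖ ≤ ‖η‖ := by
  have h := le_hasSum (I.pars η) 1 fun _ _ => by positivity
  rw [inv_one, map_one, one_apply_eq_self] at h
  exact (pow_le_pow_iff_left₀ (norm_nonneg _) (norm_nonneg _) two_ne_zero).1 h
theorem norm_j_le : ‖I.j‖ ≤ 1 :=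
  ContinuousLinearMap.opNorm_le_bound _ zero_le_one fun η => by
    rw [one_mul]; exact I.norm_j_apply_le η
theorem inner_j (ζ η : K) : ⟪I.j ζ, η⟫_ℂ = ⟪ζ, I.j η⟫_ℂ := by
  rw [← ContinuousLinearMap.adjoint_inner_right, ← ContinuousLinearMap.star_eq_adjoint, I.j_sa]
theorem rowBd_J : RowBd (fun μ => I.j * I.ρ μ⁻¹) 1 := fun η S => by
  rw [one_pow, one_mul]
  exact sum_le_hasSum S (fun _ _ => by positivity) (I.pars η)
theorem J_apply (η : K) (μ : Γ) : I.J η μ = I.j (I.ρ μ⁻¹ η) := rows_apply I.rowBd_J η μ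
theorem norm_J (η : K) : ‖I.J η‖ = ‖η‖ := by
  have h := LG.hasSum_norm_sq (I.J η)
  simp only [J_apply] at h
  exact (pow_left_inj₀ (norm_nonneg _) (norm_nonneg _) two_ne_zero).1 (h.unique (I.pars η))
theorem inner_J (ζ η : K) : ⟪I.J ζ, I.J η⟫_ℂ = ⟪ζ, η⟫_ℂ :=
  LinearIsometry.inner_map_map (⟨(I.J : K →ₗ[ℂ] LG K), I.norm_J⟩ : K →ₗᵢ[ℂ] LG K) ζ η
theorem adj_J_J (η : K) : ContinuousLinearMap.adjoint I.J (I.J η) = η :=
  ext_inner_left ℂ fun ζ => by rw [ContinuousLinearMap.adjoint_inner_right, inner_J]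
theorem norm_adj_J_le (x : LG K) : ‖ContinuousLinearMap.adjoint I.J x‖ ≤ ‖x‖ := by
  have h1 : ‖I.J‖ ≤ 1 := ContinuousLinearMap.opNorm_le_bound _ zero_le_one fun η => by
    rw [norm_J, one_mul]
  calc _ ≤ ‖ContinuousLinearMap.adjoint I.J‖ * ‖x‖ := ContinuousLinearMap.le_opNorm _ _
    _ ≤ 1 * ‖x‖ := by
        rw [LinearIsometryEquiv.norm_map]
        exact mul_le_mul_of_nonneg_right h1 (norm_nonneg _)
    _ = ‖x‖ := one_mul _
theorem rowBd_mJ {F : Γ → ℂ} {C : ℝ} (hF : ∀ μ, ‖F μ‖ ≤ C) :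
    RowBd (fun μ => F μ • (I.j * I.ρ μ⁻¹)) C := fun η S => by
  calc ∑ μ ∈ S, ‖(F μ • (I.j * I.ρ μ⁻¹)) η‖ ^ 2 ≤ ∑ μ ∈ S, C ^ 2 * ‖I.j (I.ρ μ⁻¹ η)‖ ^ 2 := by
        refine Finset.sum_le_sum fun μ _ => ?_
        change ‖F μ • I.j (I.ρ μ⁻¹ η)‖ ^ 2 ≤ _
        rw [norm_smul, mul_pow]
        gcongr
        exact hF μ
    _ ≤ C ^ 2 * ‖η‖ ^ 2 := by
        rw [← Finset.mul_sum]
        gcongr
        exact sum_le_hasSum S (fun _ _ => by positivity) (I.pars η)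
theorem mJ_apply {F : Γ → ℂ} (hF : BM F) (η : K) (μ : Γ) :
    I.mJ F η μ = F μ • I.j (I.ρ μ⁻¹ η) := by
  obtain ⟨C, hC⟩ := hF.2
  exact rows_apply (I.rowBd_mJ hC) η μ
theorem mJ_eq {F : Γ → ℂ} (hF : BM F) (η : K) : I.mJ F η = mulG K F (I.J η) := LG.ext' fun μ => by
  rw [I.mJ_apply hF, mulG_apply hF, J_apply]
theorem mJ_one : I.mJ (fun _ => 1) = I.J := by
  refine ContinuousLinearMap.ext fun η => LG.ext' fun μ => ?_
  rw [I.mJ_apply (BM.const 1), J_apply, one_smul]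
theorem mJ_add {F F' : Γ → ℂ} (hF : BM F) (hF' : BM F') :
    I.mJ (fun μ => F μ + F' μ) = I.mJ F + I.mJ F' := by
  refine ContinuousLinearMap.ext fun η => LG.ext' fun μ => ?_
  rw [add_apply, LG.add_apply, I.mJ_apply (hF.add hF'), I.mJ_apply hF,
    I.mJ_apply hF', add_smul]
theorem mJ_sub {F F' : Γ → ℂ} (hF : BM F) (hF' : BM F') :
    I.mJ (fun μ => F μ - F' μ) = I.mJ F - I.mJ F' := by
  refine ContinuousLinearMap.ext fun η => LG.ext' fun μ => ?_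
  rw [sub_apply, LG.sub_apply, I.mJ_apply (hF.sub hF'), I.mJ_apply hF,
    I.mJ_apply hF', sub_smul]
theorem norm_mJ_mono {F F' : Γ → ℂ} (hF' : BM F') {C : ℝ} (hC : 0 ≤ C)
    (h : ∀ μ, ‖F μ‖ ≤ C * ‖F' μ‖) (η : K) : ‖I.mJ F η‖ ≤ C * ‖I.mJ F' η‖ := by
  obtain ⟨D, hD⟩ := hF'.2
  have hF : BM F := bm_Γ fun μ => (h μ).trans (mul_le_mul_of_nonneg_left (hD μ) hC)
  refine LG.norm_le_of_le hC fun μ => ?_
  rw [I.mJ_apply hF, I.mJ_apply hF', norm_smul, norm_smul, ← mul_assoc]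
  exact mul_le_mul_of_nonneg_right (h μ) (norm_nonneg _)
theorem norm_mJ_le {F : Γ → ℂ} {C : ℝ} (hC : 0 ≤ C) (h : ∀ μ, ‖F μ‖ ≤ C) (η : K) :
    ‖I.mJ F η‖ ≤ C * ‖η‖ := by
  have := I.norm_mJ_mono (F := F) (BM.const 1) hC (fun μ => by simpa using h μ) η
  rwa [mJ_one, norm_J] at this
/-- the standard splitting: small on `S`, bounded off `S` -/
theorem norm_mJ_le_split {F : Γ → ℂ} {S : Set Γ} {ε C : ℝ} (hε : 0 ≤ ε) (hC : 0 ≤ C)
    (h : ∀ μ ∈ S, ‖F μ‖ ≤ ε) (h' : ∀ μ, ‖F μ‖ ≤ C) (η : K) :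
    ‖I.mJ F η‖ ≤ ε * ‖η‖ + C * ‖I.mJ (ic Sᶜ) η‖ := by
  have hF : BM F := bm_Γ h'
  have e : F = fun μ => F μ * ic S μ + F μ * ic Sᶜ μ := funext fun μ => by
    by_cases hμ : μ ∈ S <;> simp [hμ]
  rw [e, I.mJ_add (hF.mul (bm_ic_Γ S)) (hF.mul (bm_ic_Γ Sᶜ)), add_apply]
  refine (norm_add_le _ _).trans (add_le_add (I.norm_mJ_le hε (fun μ => ?_) η)
    (I.norm_mJ_mono (bm_ic_Γ Sᶜ) hC (fun μ => ?_) η))
  · by_cases hμ : μ ∈ S
    · simpa [hμ] using h μ hμ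
    · simpa [hμ] using hε
  · rw [norm_mul]
    exact mul_le_mul_of_nonneg_right (h' μ) (norm_nonneg _)
theorem m_apply (F : Γ → ℂ) (η : K) : I.m F η = ContinuousLinearMap.adjoint I.J (I.mJ F η) := rfl
theorem inner_m (F : Γ → ℂ) (ζ η : K) : ⟪ζ, I.m F η⟫_ℂ = ⟪I.J ζ, I.mJ F η⟫_ℂ := by
  rw [m_apply, ContinuousLinearMap.adjoint_inner_right]
theorem inner_mJ {F F' : Γ → ℂ} (hF : BM F) (hF' : BM F') (ζ η : K) :
    ⟪I.mJ F ζ, I.mJ F' η⟫_ℂ = ⟪ζ, I.m (fun μ => (starRingEnd ℂ) (F μ) * F' μ) η⟫_ℂ := by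
  rw [inner_m]
  refine LG.inner_eq_of_equiv (Equiv.refl Γ) fun μ => ?_
  simp only [Equiv.refl_apply, I.mJ_apply hF, I.mJ_apply hF', I.mJ_apply (hF.conj.mul hF'),
    J_apply, inner_smul_left, inner_smul_right, mul_assoc, mul_left_comm]
theorem norm_m_apply_le (F : Γ → ℂ) (η : K) : ‖I.m F η‖ ≤ ‖I.mJ F η‖ := I.norm_adj_J_le _
theorem norm_m_le {F : Γ → ℂ} {C : ℝ} (hC : 0 ≤ C) (h : ∀ μ, ‖F μ‖ ≤ C) : ‖I.m F‖ ≤ C :=
  ContinuousLinearMap.opNorm_le_bound _ hC fun η =>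
    (I.norm_m_apply_le F η).trans (I.norm_mJ_le hC h η)
theorem hasSum_inner_m {F : Γ → ℂ} (hF : BM F) (ζ η : K) :
    HasSum (fun μ => F μ * ⟪I.j (I.ρ μ⁻¹ ζ), I.j (I.ρ μ⁻¹ η)⟫_ℂ) ⟪ζ, I.m F η⟫_ℂ := by
  have h := LG.hasSum_inner (I.J ζ) (I.mJ F η)
  simp only [J_apply, I.mJ_apply hF, inner_smul_right] at h
  rwa [inner_m]
theorem hasSum_inner_m_self {F : Γ → ℂ} (hF : BM F) (η : K) :
    HasSum (fun μ => F μ * ((‖I.j (I.ρ μ⁻¹ η)‖ ^ 2 : ℝ) : ℂ)) ⟪η, I.m F η⟫_ℂ := by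
  have h := I.hasSum_inner_m hF η η
  simp only [inner_self_eq_norm_sq_to_K] at h
  simp only [Complex.ofReal_pow]
  exact h
theorem hasSum_norm_mJ_sq {F : Γ → ℂ} (hF : BM F) (η : K) :
    HasSum (fun μ => ‖F μ‖ ^ 2 * ‖I.j (I.ρ μ⁻¹ η)‖ ^ 2) (‖I.mJ F η‖ ^ 2) := by
  have h := LG.hasSum_norm_sq (I.mJ F η)
  simpa only [I.mJ_apply hF, norm_smul, mul_pow] using h

/-- the position POVM -/
noncomputable def mP : POVM Γ K where
  E := I.m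
  ν η := Measure.sum fun μ => ENNReal.ofReal (‖I.j (I.ρ μ⁻¹ η)‖ ^ 2) • Measure.dirac μ
  fin η := ⟨by
    rw [Measure.sum_apply _ MeasurableSet.univ]
    simp only [Measure.smul_apply, measure_univ, smul_eq_mul, mul_one]
    rw [← ENNReal.ofReal_tsum_of_nonneg (fun _ => by positivity) (I.pars η).summable]
    exact ENNReal.ofReal_lt_top⟩
  inner_E F hF η := by
    rw [integral_sum_dirac (fun _ => ENNReal.ofReal_ne_top), ← (I.hasSum_inner_m_self hF η).tsum_eq]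
    refine tsum_congr fun μ => ?_
    rw [ENNReal.toReal_ofReal (by positivity), Complex.real_smul, mul_comm]
  E_one := by
    refine ContinuousLinearMap.ext fun η => ?_
    rw [m_apply, mJ_one, adj_J_J, one_apply_eq_self]

@[simp] theorem mP_E : I.mP.E = I.m := rfl
theorem star_m {F : Γ → ℂ} (hF : BM F) : star (I.m F) = I.m fun μ => (starRingEnd ℂ) (F μ) :=
  I.mP.E_star hF
theorem m_one : I.m (fun _ => 1) = 1 := I.mP.E_one
theorem ρ_m {F : Γ → ℂ} (hF : BM F) (ν : Γ) :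
    I.ρ ν * I.m F * I.ρ ν⁻¹ = I.m fun μ => F (ν⁻¹ * μ) := by
  have hF' : BM fun μ => F (ν⁻¹ * μ) := hF.comp measurable_from_top
  refine ContinuousLinearMap.ext fun η => ext_inner_left ℂ fun ζ => ?_
  rw [mul_apply_eq_comp, mul_apply_eq_comp, URep.inner_right, inner_m,
    inner_m]
  refine (LG.inner_eq_of_equiv (Equiv.mulLeft ν) fun μ => ?_).symm
  simp only [Equiv.coe_mulLeft, J_apply, I.mJ_apply hF, I.mJ_apply hF', inv_mul_cancel_left,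
    mul_inv_rev, URep.mul_apply]
theorem norm_mJ_ρ {F : Γ → ℂ} (hF : BM F) (ν : Γ) (η : K) :
    ‖I.mJ F (I.ρ ν η)‖ = ‖I.mJ (fun μ => F (ν * μ)) η‖ := by
  have hF' : BM fun μ => F (ν * μ) := hF.comp measurable_from_top
  refine LG.norm_eq_of_equiv (Equiv.mulLeft ν) fun μ => ?_
  simp only [Equiv.coe_mulLeft, I.mJ_apply hF, I.mJ_apply hF', mul_inv_rev, URep.mul_apply,
    URep.inv_apply_apply]
theorem j_ρ_comm {S : K →L[ℂ] K} (hρ : ∀ μ, Commute S (I.ρ μ)) (hj : Commute S I.j) (μ : Γ)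
    (η : K) : I.j (I.ρ μ (S η)) = S (I.j (I.ρ μ η)) :=
  congrArg (fun T : K →L[ℂ] K => T η) (hj.mul_right (hρ μ)).eq.symm
/-- operators commuting with `ρ` and `j` -/
theorem commute_m {S : K →L[ℂ] K} (hρ : ∀ μ, Commute S (I.ρ μ)) (hj : Commute S I.j) {F : Γ → ℂ}
    (hF : BM F) : Commute S (I.m F) := by
  have hρ' : ∀ μ, Commute (star S) (I.ρ μ) := fun μ => by
    have := (hρ μ⁻¹).star_star
    rwa [URep.star_apply, inv_inv] at this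
  have hj' : Commute (star S) I.j := by
    have := hj.star_star
    rwa [I.j_sa] at this
  refine ContinuousLinearMap.ext fun η => ext_inner_left ℂ fun ζ => ?_
  rw [mul_apply_eq_comp, mul_apply_eq_comp,
    ← ContinuousLinearMap.adjoint_inner_left, ← ContinuousLinearMap.star_eq_adjoint]
  refine (I.hasSum_inner_m hF _ _).unique ?_
  have h := I.hasSum_inner_m hF ζ (S η)
  simp only [I.j_ρ_comm hρ hj, I.j_ρ_comm hρ' hj'] at h ⊢
  simpa only [ContinuousLinearMap.star_eq_adjoint, ContinuousLinearMap.adjoint_inner_left] using h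
theorem norm_mJ_comm_le {S : K →L[ℂ] K} (hρ : ∀ μ, Commute S (I.ρ μ)) (hj : Commute S I.j)
    {F : Γ → ℂ} (hF : BM F) (η : K) : ‖I.mJ F (S η)‖ ≤ ‖S‖ * ‖I.mJ F η‖ := by
  refine LG.norm_le_of_le (norm_nonneg _) fun μ => ?_
  rw [I.mJ_apply hF, I.mJ_apply hF, I.j_ρ_comm hρ hj, ← map_smul]
  exact S.le_opNorm _
theorem m_finset (s : Finset Γ) :
    I.m (ic (s : Set Γ)) = ∑ μ ∈ s, I.ρ μ * I.j * I.j * I.ρ μ⁻¹ := by
  refine ContinuousLinearMap.ext fun η => ext_inner_left ℂ fun ζ => ?_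
  rw [sum_apply, inner_sum]
  refine (I.hasSum_inner_m (bm_ic_Γ _) ζ η).unique ?_
  have h : HasSum (fun μ => ic (s : Set Γ) μ * ⟪I.j (I.ρ μ⁻¹ ζ), I.j (I.ρ μ⁻¹ η)⟫_ℂ)
      (∑ μ ∈ s, ic (s : Set Γ) μ * ⟪I.j (I.ρ μ⁻¹ ζ), I.j (I.ρ μ⁻¹ η)⟫_ℂ) :=
    hasSum_sum_of_ne_finset_zero fun μ hμ => by
      rw [ic_of_notMem (by simpa using hμ), zero_mul]
  convert h using 1
  refine Finset.sum_congr rfl fun μ hμ => ?_
  rw [ic_of_mem (by simpa using hμ), one_mul, inner_j, ← URep.inner_right]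
  rfl
theorem tendsto_mJ_compl (η : K) :
    Tendsto (fun s : Finset Γ => I.mJ (ic (s : Set Γ)ᶜ) η) atTop (𝓝 0) := by
  have h1 : ∀ s : Finset Γ, ‖I.mJ (ic (s : Set Γ)ᶜ) η‖ ^ 2
      = ‖η‖ ^ 2 - ∑ μ ∈ s, ‖I.j (I.ρ μ⁻¹ η)‖ ^ 2 := fun s => by
    have h2 : HasSum (fun μ => ‖ic (s : Set Γ) μ‖ ^ 2 * ‖I.j (I.ρ μ⁻¹ η)‖ ^ 2)
        (∑ μ ∈ s, ‖ic (s : Set Γ) μ‖ ^ 2 * ‖I.j (I.ρ μ⁻¹ η)‖ ^ 2) :=
      hasSum_sum_of_ne_finset_zero fun μ hμ => by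
        rw [ic_of_notMem (by simpa using hμ)]; simp
    have h3 := (I.hasSum_norm_mJ_sq (bm_ic_Γ (s : Set Γ)ᶜ) η).add h2
    have h4 : ∀ μ, ‖ic (s : Set Γ)ᶜ μ‖ ^ 2 * ‖I.j (I.ρ μ⁻¹ η)‖ ^ 2
        + ‖ic (s : Set Γ) μ‖ ^ 2 * ‖I.j (I.ρ μ⁻¹ η)‖ ^ 2 = ‖I.j (I.ρ μ⁻¹ η)‖ ^ 2 := fun μ => by
      by_cases hμ : μ ∈ (s : Set Γ) <;> simp [hμ]
    simp only [h4] at h3
    rw [(I.pars η).unique h3, Finset.sum_congr rfl fun μ hμ => by
      rw [ic_of_mem (by simpa using hμ), norm_one, one_pow, one_mul]]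
    ring
  have h5 : Tendsto (fun s : Finset Γ => ‖I.mJ (ic (s : Set Γ)ᶜ) η‖ ^ 2) atTop (𝓝 0) := by
    simp only [h1]
    have := (tendsto_const_nhds (x := ‖η‖ ^ 2)).sub (I.pars η)
    rwa [sub_self] at this
  rw [tendsto_zero_iff_norm_tendsto_zero]
  have h6 := h5.sqrt
  simpa only [Real.sqrt_sq (norm_nonneg _), Real.sqrt_zero] using h6
theorem ms_eq (k : ℕ) (S : Set Γ) :
    I.ms k (S.indicator fun _ => 1) = ‖I.mJ (ic S) (I.U (al k) I.ξ)‖ ^ 2 := by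
  rw [← (I.hasSum_norm_mJ_sq (bm_ic_Γ S) _).tsum_eq, ms]
  refine tsum_congr fun μ => ?_
  by_cases hμ : μ ∈ S <;> simp [hμ]

/-! ### the algebras -/

theorem mem_N {T : K →L[ℂ] K} : T ∈ I.N ↔ ∀ a ∈ I.C, Commute a T := Set.mem_centralizer_iff
theorem one_N : (1 : K →L[ℂ] K) ∈ I.N := I.mem_N.2 fun a _ => Commute.one_right a
variable {I} {S T : K →L[ℂ] K}
theorem mul_N (hS : S ∈ I.N) (hT : T ∈ I.N) : S * T ∈ I.N :=
  I.mem_N.2 fun a ha => (I.mem_N.1 hS a ha).mul_right (I.mem_N.1 hT a ha)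
theorem sub_N (hS : S ∈ I.N) (hT : T ∈ I.N) : S - T ∈ I.N :=
  I.mem_N.2 fun a ha => (I.mem_N.1 hS a ha).sub_right (I.mem_N.1 hT a ha)
theorem smul_N (c : ℂ) (hT : T ∈ I.N) : c • T ∈ I.N :=
  I.mem_N.2 fun a ha => (I.mem_N.1 hT a ha).smul_right c
theorem star_N (hT : T ∈ I.N) : star T ∈ I.N :=
  I.mem_N.2 fun a ha => by
    have := (I.mem_N.1 hT _ (I.star_C a ha)).star_star
    rwa [star_star] at this
theorem conj_N (hT : T ∈ I.N) (g : G) : I.U g * T * I.U g⁻¹ ∈ I.N :=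
  I.mem_N.2 fun a ha => by
    have h := (I.mem_N.1 hT _ (I.conj_C a ha g⁻¹)).eq
    rw [inv_inv] at h
    have e : ∀ X : K →L[ℂ] K, I.U g * (I.U g⁻¹ * X) = X := fun X => by
      rw [← mul_assoc, URep.mul_inv_self, one_mul]
    have h' := congrArg (fun X => I.U g * X * I.U g⁻¹) h
    simp only [mul_assoc, e, URep.mul_inv_self, mul_one] at h'
    simpa only [Commute, SemiconjBy, mul_assoc] using h'
theorem wtends_N {α : Type*} {l : Filter α} [l.NeBot] {T : α → K →L[ℂ] K} {T₀ : K →L[ℂ] K}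
    (h : ∀ᶠ a in l, T a ∈ I.N) (hT : WTends l T T₀) : T₀ ∈ I.N :=
  I.mem_N.2 fun a ha => by
    refine ContinuousLinearMap.ext fun v => ext_inner_left ℂ fun w => ?_
    have h1 := hT (star a w) v
    have h2 := hT w (a v)
    have e : ∀ X : K →L[ℂ] K, ⟪star a w, X v⟫_ℂ = ⟪w, (a * X) v⟫_ℂ := fun X =>
      ContinuousLinearMap.adjoint_inner_left a (X v) w
    simp only [e] at h1
    refine tendsto_nhds_unique (h1.congr' (h.mono fun b hb => ?_)) h2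
    change ⟪w, (a * T b) v⟫_ℂ = ⟪w, (T b * a) v⟫_ℂ
    rw [(I.mem_N.1 hb a ha).eq]
theorem word_N {Y : Type} [MeasurableSpace Y] {n : ℕ} {P : Fin n → POVM Y K} {f : Fin n → Y → ℂ}
    (h : ∀ i, (P i).E (f i) ∈ I.N) : word P f ∈ I.N :=
  I.mem_N.2 fun a ha => Commute.list_prod_right _ _ fun x hx => by
    obtain ⟨i, rfl⟩ := List.mem_ofFn.1 hx
    exact I.mem_N.1 (h i) a ha
theorem mul_Q (hS : S ∈ I.Q) (hT : T ∈ I.Q) : S * T ∈ I.Q :=
  ⟨mul_N hS.1 hT.1, fun μ => (hS.2 μ).mul_left (hT.2 μ)⟩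
theorem sub_Q (hS : S ∈ I.Q) (hT : T ∈ I.Q) : S - T ∈ I.Q :=
  ⟨sub_N hS.1 hT.1, fun μ => (hS.2 μ).sub_left (hT.2 μ)⟩
theorem star_Q (hT : T ∈ I.Q) : star T ∈ I.Q :=
  ⟨star_N hT.1, fun μ => by
    have := (hT.2 μ⁻¹).star_star
    rwa [URep.star_apply, inv_inv] at this⟩
variable (I)
theorem one_Q : (1 : K →L[ℂ] K) ∈ I.Q := ⟨I.one_N, fun μ => Commute.one_left _⟩
theorem ρ_N (μ : Γ) : I.ρ μ ∈ I.N := I.mem_N.2 fun a ha => I.Cρ a ha μ
theorem m_N {F : Γ → ℂ} (hF : BM F) : I.m F ∈ I.N :=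
  I.mem_N.2 fun a ha => I.commute_m (I.Cρ a ha) (I.Cj a ha) hF
theorem y_Q (g : G) : I.y g ∈ I.Q := ⟨I.y_N g, I.y_ρ g⟩
theorem norm_y (g : G) (η : K) : ‖I.y g η‖ = ‖η‖ :=
  ContinuousLinearMap.norm_map_of_mem_unitary (I.y_un g) η
theorem norm_star_y (g : G) (η : K) : ‖star (I.y g) η‖ = ‖η‖ :=
  ContinuousLinearMap.norm_map_of_mem_unitary (Unitary.star_mem (I.y_un g)) η

/-! ### the flow -/

theorem σ_eq (k : ℕ) (T : K →L[ℂ] K) : I.σ k T = I.U (al (-k)) * T * I.U (al (-k))⁻¹ := by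
  rw [al_neg, inv_inv, σ]
theorem inner_σ (k : ℕ) (T : K →L[ℂ] K) (ζ η : K) :
    ⟪ζ, I.σ k T η⟫_ℂ = ⟪I.U (al k) ζ, T (I.U (al k) η)⟫_ℂ := by
  change ⟪ζ, I.U (al k)⁻¹ (T (I.U (al k) η))⟫_ℂ = _
  rw [← I.U.inner_map_map (al k), URep.apply_inv_apply]
theorem norm_σ_apply (k : ℕ) (T : K →L[ℂ] K) (η : K) : ‖I.σ k T η‖ = ‖T (I.U (al k) η)‖ :=
  I.U.norm_map _ _
theorem norm_σ (k : ℕ) (T : K →L[ℂ] K) : ‖I.σ k T‖ = ‖T‖ := by
  rw [σ, CStarRing.norm_mul_mem_unitary _ (I.U.mem_unitary _),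
    CStarRing.norm_mem_unitary_mul _ (I.U.mem_unitary _)]
theorem σ_add (k : ℕ) (S T : K →L[ℂ] K) : I.σ k (S + T) = I.σ k S + I.σ k T := by
  simp only [σ, mul_add, add_mul]
theorem σ_sub (k : ℕ) (S T : K →L[ℂ] K) : I.σ k (S - T) = I.σ k S - I.σ k T := by
  simp only [σ, mul_sub, sub_mul]
theorem σ_smul (k : ℕ) (c : ℂ) (T : K →L[ℂ] K) : I.σ k (c • T) = c • I.σ k T := by
  simp only [σ, mul_smul_comm, smul_mul_assoc]
theorem σ_one (k : ℕ) : I.σ k 1 = 1 := by rw [σ, mul_one, URep.inv_mul_self]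
theorem σ_N {T : K →L[ℂ] K} (hT : T ∈ I.N) (k : ℕ) : I.σ k T ∈ I.N := by
  rw [σ_eq]
  exact conj_N hT _
theorem ρ_σ (k : ℕ) (ν : Γ) (T : K →L[ℂ] K) :
    I.ρ ν * I.σ k T * I.ρ ν⁻¹ = I.σ k (I.ρ ν * T * I.ρ ν⁻¹) := by
  simp only [σ, mul_assoc]
  rw [(I.Uρ (al k) ν⁻¹).eq, (I.Uρ (al k)⁻¹ ν).left_comm]

/-- the untwisted representation `U g (y g)^*` -/
noncomputable def vv (g : G) : K →L[ℂ] K := I.U g * star (I.y g)

theorem U_eq (g : G) : I.U g = I.vv g * I.y g := by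
  rw [vv, mul_assoc, Unitary.star_mul_self_of_mem (I.y_un g), mul_one]
theorem vv_unitary (g : G) : I.vv g ∈ unitary (K →L[ℂ] K) :=
  mul_mem (I.U.mem_unitary g) (Unitary.star_mem (I.y_un g))
theorem vv_j (g : G) : Commute (I.vv g) I.j := I.V_j g
theorem vv_ρ (g : G) (μ : Γ) : Commute (I.vv g) (I.ρ μ) :=
  (I.Uρ g μ).mul_left ((star_Q (I.y_Q g)).2 μ)
theorem vv_m (g : G) {F : Γ → ℂ} (hF : BM F) : Commute (I.vv g) (I.m F) :=
  I.commute_m (I.vv_ρ g) (I.vv_j g) hF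
theorem star_vv_j (g : G) : Commute (star (I.vv g)) I.j := by
  have := (I.vv_j g).star_star
  rwa [I.j_sa] at this
theorem star_vv_ρ (g : G) (μ : Γ) : Commute (star (I.vv g)) (I.ρ μ) := by
  have := (I.vv_ρ g μ⁻¹).star_star
  rwa [URep.star_apply, inv_inv] at this
/-- a unitary commuting with `ρ` and `j` does not increase the position amplitudes -/
theorem norm_mJ_unitary_le {S : K →L[ℂ] K} (hS : S ∈ unitary (K →L[ℂ] K))
    (hρ : ∀ μ, Commute S (I.ρ μ)) (hj : Commute S I.j) {F : Γ → ℂ} (hF : BM F) (η : K) :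
    ‖I.mJ F (S η)‖ ≤ ‖I.mJ F η‖ :=
  (I.norm_mJ_comm_le hρ hj hF η).trans <| mul_le_of_le_one_left (norm_nonneg _) <|
    ContinuousLinearMap.opNorm_le_bound _ zero_le_one fun v => by
      rw [ContinuousLinearMap.norm_map_of_mem_unitary hS, one_mul]
theorem norm_mJ_vv (g : G) {F : Γ → ℂ} (hF : BM F) (η : K) : ‖I.mJ F (I.vv g η)‖ = ‖I.mJ F η‖ := by
  refine le_antisymm (I.norm_mJ_unitary_le (I.vv_unitary g) (I.vv_ρ g) (I.vv_j g) hF η) ?_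
  have := I.norm_mJ_unitary_le (Unitary.star_mem (I.vv_unitary g)) (I.star_vv_ρ g) (I.star_vv_j g)
    hF (I.vv g η)
  rwa [← mul_apply_eq_comp, Unitary.star_mul_self_of_mem (I.vv_unitary g)] at this

/-- the trace -/
noncomputable def τ (T : K →L[ℂ] K) : ℂ := ⟪I.ξ, T I.ξ⟫_ℂ / (‖I.ξ‖ ^ 2 : ℝ)

theorem mix_σ {T : K →L[ℂ] K} (hT : T ∈ I.Q) :
    WTends atTop (fun k => I.σ k T) (I.τ T • (1 : K →L[ℂ] K)) := by
  have h := I.mix T hT.1 hT.2 (fun n => -2 * -(n : ℝ)) (fun n => -(n : ℝ)) 0 1 (by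
    refine (tendsto_natCast_atTop_atTop.const_mul_atTop (show (0 : ℝ) < 3 by norm_num)).congr
      fun n => ?_
    simp only [dgl, Matrix.cons_val_zero, Matrix.cons_val_one]
    ring)
  simpa only [σ_eq, al, τ] using h

/-! ### ergodicity -/

theorem erg_Q {T : K →L[ℂ] K} (hT : T ∈ I.Q) {i k : Fin 3} (h : i ≠ k)
    (hU : ∀ b, Commute T (I.U (tv h b))) : ∃ c : ℂ, T = c • (1 : K →L[ℂ] K) :=
  I.erg T hT.1 hT.2 i k h hU
/-- the projection onto a subspace invariant under `a` and `a^*` commutes with `a` -/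
theorem commute_starProjection (M : Submodule ℂ K) [M.HasOrthogonalProjection] {a : K →L[ℂ] K}
    (h : ∀ η ∈ M, a η ∈ M) (h' : ∀ η ∈ M, star a η ∈ M) : Commute a M.starProjection := by
  have key : ∀ b : K →L[ℂ] K, (∀ η ∈ M, b η ∈ M) →
      M.starProjection * b * M.starProjection = b * M.starProjection := fun b hb =>
    ContinuousLinearMap.ext fun v =>
      Submodule.starProjection_eq_self_iff.2 (hb _ (M.starProjection_apply_mem v))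
  have h2 := congrArg star (key _ h')
  have hp : star M.starProjection = M.starProjection := isSelfAdjoint_starProjection M
  simp only [star_mul, star_star, hp, ← mul_assoc] at h2
  rw [Commute, SemiconjBy, ← key a h, h2]
/-- **ERG** for subspaces -/
theorem erg_sub (M : Submodule ℂ K) (hM : IsClosed (M : Set K)) (hC : ∀ a ∈ I.C, ∀ η ∈ M, a η ∈ M)
    (hρ : ∀ μ, ∀ η ∈ M, I.ρ μ η ∈ M) {i k : Fin 3} (h : i ≠ k)
    (hU : ∀ b, ∀ η ∈ M, I.U (tv h b) η ∈ M) : M = ⊥ ∨ M = ⊤ := by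
  have : CompleteSpace M := hM.completeSpace_coe
  obtain ⟨c, hc⟩ := I.erg_Q (T := M.starProjection)
    ⟨I.mem_N.2 fun a ha => commute_starProjection M (hC a ha) (hC _ (I.star_C a ha)),
      fun μ => (commute_starProjection M (hρ μ) (by rw [URep.star_apply]; exact hρ _)).symm⟩ h
    fun b => (commute_starProjection M (hU b) (by rw [URep.star_apply, tv_inv]; exact hU _)).symm
  by_cases h0 : c = 0
  · refine Or.inl (eq_bot_iff.2 fun v hv => ?_)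
    rw [← Submodule.starProjection_eq_self_iff.2 hv, hc, h0, zero_smul]
    exact Submodule.zero_mem _
  · refine Or.inr (eq_top_iff.2 fun v _ => ?_)
    have := M.starProjection_apply_mem v
    rw [hc] at this
    exact (M.smul_mem_iff h0).1 this
/-- **RANGE**: a normalised family with a nonzero member has total range -/
theorem range_lemma {𝒴 : Set (K →L[ℂ] K)} (hC : ∀ Y ∈ 𝒴, ∀ a ∈ I.C, ∃ Y' ∈ 𝒴, a * Y = Y' * a)
    (hρ : ∀ Y ∈ 𝒴, ∀ μ, ∃ Y' ∈ 𝒴, I.ρ μ * Y = Y' * I.ρ μ) {i k : Fin 3} (h : i ≠ k)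
    (hU : ∀ Y ∈ 𝒴, ∀ b, ∃ Y' ∈ 𝒴, I.U (tv h b) * Y = Y' * I.U (tv h b)) (hne : ∃ Y ∈ 𝒴, Y ≠ 0)
    {X : K →L[ℂ] K} (hX : ∀ Y ∈ 𝒴, X * Y = 0) : X = 0 := by
  set A : Set K := {v | ∃ Y ∈ 𝒴, ∃ η, v = Y η} with hA
  set M := (Submodule.span ℂ A).topologicalClosure with hM
  have key : ∀ (a : K →L[ℂ] K) (M' : Submodule ℂ K), IsClosed (M' : Set K) → (∀ v ∈ A, a v ∈ M') →
      ∀ η ∈ M, a η ∈ M' := fun a M' hM' ha =>
    Submodule.topologicalClosure_minimal (t := M'.comap (a : K →ₗ[ℂ] K)) _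
      (Submodule.span_le.2 ha) (hM'.preimage a.continuous)
  have hAM : ∀ v ∈ A, v ∈ M := fun v hv =>
    Submodule.le_topologicalClosure _ (Submodule.subset_span hv)
  have inv : ∀ a : K →L[ℂ] K, (∀ Y ∈ 𝒴, ∃ Y' ∈ 𝒴, a * Y = Y' * a) → ∀ η ∈ M, a η ∈ M := fun a ha =>
    key a M (Submodule.isClosed_topologicalClosure _) (by
      rintro _ ⟨Y, hY, η, rfl⟩
      obtain ⟨Y', hY', e⟩ := ha Y hY
      exact hAM _ ⟨Y', hY', a η, congrArg (fun Z : K →L[ℂ] K => Z η) e⟩)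
  rcases I.erg_sub M (Submodule.isClosed_topologicalClosure _)
    (fun a ha => inv a fun Y hY => hC Y hY a ha) (fun μ => inv _ fun Y hY => hρ Y hY μ) h
    (fun b => inv _ fun Y hY => hU Y hY b) with h0 | h1
  · obtain ⟨Y, hY, hne⟩ := hne
    refine absurd (ContinuousLinearMap.ext fun η => ?_) hne
    have := hAM _ ⟨Y, hY, η, rfl⟩
    rwa [h0] at this
  · refine ContinuousLinearMap.ext fun v => key X ⊥ isClosed_singleton ?_ v (h1 ▸ trivial)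
    rintro _ ⟨Y, hY, η, rfl⟩
    exact congrArg (fun Z : K →L[ℂ] K => Z η) (hX Y hY)
/-- **KERNEL**: the common kernel of a normalised family is trivial or everything -/
theorem kernel_lemma {𝒴 : Set (K →L[ℂ] K)} (hC : ∀ Y ∈ 𝒴, Y ∈ I.N)
    (hρ : ∀ Y ∈ 𝒴, ∀ μ, ∃ Y' ∈ 𝒴, Y * I.ρ μ = I.ρ μ * Y') {i k : Fin 3} (h : i ≠ k)
    (hU : ∀ Y ∈ 𝒴, ∀ b, Commute Y (I.U (tv h b))) {T : K →L[ℂ] K} (hT : ∀ Y ∈ 𝒴, Y * T = 0) :
    T = 0 ∨ ∀ Y ∈ 𝒴, Y = 0 := by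
  let M : Submodule ℂ K :=
    { carrier := {v | ∀ Y ∈ 𝒴, Y v = 0}
      add_mem' := fun hv hw Y hY => by rw [map_add, hv Y hY, hw Y hY, add_zero]
      zero_mem' := fun Y _ => map_zero Y
      smul_mem' := fun c v hv Y hY => by rw [map_smul, hv Y hY, smul_zero] }
  have hM : IsClosed (M : Set K) := by
    change IsClosed {v | ∀ Y ∈ 𝒴, Y v = 0}
    simp only [Set.ofPred_forall]
    exact isClosed_iInter fun Y => isClosed_iInter fun _ => isClosed_eq Y.continuous continuous_const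
  have inv : ∀ a : K →L[ℂ] K, (∀ Y ∈ 𝒴, ∃ Y' ∈ 𝒴, Y * a = a * Y') → ∀ η ∈ M, a η ∈ M :=
    fun a ha η hη Y hY => by
      obtain ⟨Y', hY', e⟩ := ha Y hY
      change (Y * a) η = 0
      rw [e, mul_apply_eq_comp, hη Y' hY', map_zero]
  rcases I.erg_sub M hM
    (fun a ha => inv a fun Y hY => ⟨Y, hY, (I.mem_N.1 (hC Y hY) a ha).symm.eq⟩)
    (fun μ => inv _ fun Y hY => hρ Y hY μ) h
    (fun b => inv _ fun Y hY => ⟨Y, hY, (hU Y hY b).eq⟩) with h0 | h1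
  · refine Or.inl (ContinuousLinearMap.ext fun v => ?_)
    have : T v ∈ M := fun Y hY => congrArg (fun Z : K →L[ℂ] K => Z v) (hT Y hY)
    rwa [h0] at this
  · refine Or.inr fun Y hY => ContinuousLinearMap.ext fun v => ?_
    have : v ∈ M := h1 ▸ trivial
    exact this Y hY

/-! ### duality and twisting -/

variable {I} {I' : Ind K}
theorem IsDual.symm (h : I.IsDual I') : I'.IsDual I where
  U g := by rw [h.U, RelAux.dl_dl]; simp only [one_mul, mul_one]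
  ρ μ := by rw [h.ρ, RelAux.dl_dl]; simp only [one_mul, mul_one]
  C := by rw [h.C]; simp only [one_mul, mul_one, Set.image_id']
  j := by rw [h.j]; simp only [one_mul, mul_one]
  ξ := by rw [h.ξ]; rfl
theorem IsDual.U_eq (h : I.IsDual I') (g : G) : I'.U g = I.U (dl g) := by
  rw [h.U, one_mul, mul_one]
theorem IsDual.ρ_eq (h : I.IsDual I') (μ : Γ) : I'.ρ μ = I.ρ (dl μ) := by
  rw [h.ρ, one_mul, mul_one]
theorem IsDual.C_eq (h : I.IsDual I') : I'.C = I.C := by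
  rw [h.C]; simp only [one_mul, mul_one, Set.image_id']
theorem IsDual.N_eq (h : I.IsDual I') : I'.N = I.N := by rw [N, N, h.C_eq]
theorem IsDual.Q_eq (h : I.IsDual I') : I'.Q = I.Q := by
  ext T
  refine and_congr (by rw [h.N_eq]) ⟨fun hT μ => ?_, fun hT μ => ?_⟩
  · rw [h.symm.ρ_eq]; exact hT _
  · rw [h.ρ_eq]; exact hT _
theorem IsDual.j_eq (h : I.IsDual I') : I'.j = I.j := by rw [h.j, one_mul, mul_one]
theorem IsDual.ξ_eq (h : I.IsDual I') : I'.ξ = I.ξ := h.ξ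

end Ind

end Crest.Agent.N111
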